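import Vale.Agent.P245.Quarter.Outer
import Vale.Agent.P245.Push.RenyiConc

/-!
Concentration of Lipschitz functions from the divergence of order three halves.
-/

noncomputable section

open MeasureTheory Set Filter Topology Matrix
open scoped ENNReal

namespace Vale.Agent.P245

variable {n : ℕ} {μ : Measure (Space n)} {R : ℝ}

theorem concOfHalf (hs : IsSLC 0 μ) (hμ : Car μ R) (hS : Sub1 μ) {t r : ℝ} (ht : 0 < t)
    (ht4 : t ≤ 1 / 4) (hhalf : HalfLe μ t r) : Conc μ (4 / 3 * r) (194 / t) := by
  intro f hf hfd s0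
  have hH := herbstBound
  have := hμ.prob
  have hfc := hf.continuous
  obtain ⟨T, hTn, hquad⟩ := exists_refMap hμ hS ht.le ht4
  have ha : Adm R f := adm_continuous hfc R
  set F : Space n → ℝ := fun g => M μ f (t, √t • g) with hF
  have hFd : ContDiff ℝ 1 F := by
    have h1 := (contDiff_Nf hμ 1 ha).comp (f := fun g : Space n => ((t, √t • g) : Par n))
      (contDiff_const.prodMk (contDiff_const_smul √t))
    have h2 := (contDiff_Nf hμ 1 (adm_continuous (continuous_const (y := (1 : ℝ))) R)).comp
      (f := fun g : Space n => ((t, √t • g) : Par n)) (contDiff_const.prodMk (contDiff_const_smul √t))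
    exact h1.div h2 fun g => (Zf_pos hμ _).ne'
  obtain ⟨B, hB⟩ := bounded_M hμ ha
  have hgrad : ∀ g, ‖fderiv ℝ F g‖ ≤ 2 / √t := by
    intro g
    set p : Par n := (t, √t • g) with hp
    have hslc : IsSLC (0 + t) (tlt μ p) := hs.tlt p
    rw [zero_add] at hslc
    have hν := hμ.tlt p
    have := hν.prob
    obtain ⟨v, hv, hcov⟩ := grad2_eq_cov hμ hfc p
    have hvb : ‖v‖ ≤ 2 / t := by
      set m := ∫ y, f y ∂tlt μ p with hm
      set Y : Space n → ℝ := fun x => inner ℝ v x - ∫ y, inner ℝ v y ∂tlt μ p with hY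
      have hYc : Continuous Y := by simp only [hY]; fun_prop
      have hi : ∀ u : Space n → ℝ, Continuous u → Integrable u (tlt μ p) := fun u hu => hν.int_cont hu
      have e0 : ∫ x, Y x ∂tlt μ p = 0 := by
        simp only [hY]; rw [integral_sub (hi _ (by fun_prop)) (integrable_const _)]; simp
      have e1 : ‖v‖ ^ 2 = ∫ x, (f x - m) * Y x ∂tlt μ p := by
        simp only [sub_mul]
        rw [integral_sub (hi _ (by fun_prop)) (hi _ (by fun_prop)), integral_const_mul, e0, mul_zero,
          sub_zero, hv, hcov]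
      have h2 := cs_sq hν (f := fun x => f x - m) (g := Y) (by fun_prop) hYc
      rw [← e1] at h2
      have h3 : var (tlt μ p) f ≤ 2 / t := by
        refine (hslc.poincare ht hf).trans (mul_le_of_le_one_right (by positivity) ?_)
        refine (integral_mono ((hi _ ?_)) (integrable_const 1) fun x => ?_).trans (by simp)
        · exact (hf.continuous_fderiv (by norm_num)).norm.pow 2
        · exact pow_le_one₀ (norm_nonneg _) (hfd x)
      have h4 := hslc.var_inner ht v
      have h5 : (‖v‖ ^ 2) ^ 2 ≤ (2 / t) * (2 / t * ‖v‖ ^ 2) :=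
        h2.trans (mul_le_mul h3 h4 (integral_nonneg fun x => sq_nonneg _) (by positivity))
      rcases (norm_nonneg v).eq_or_lt with h0 | h0
      · rw [← h0]; positivity
      · refine (pow_le_pow_iff_left₀ (norm_nonneg _) (by positivity) two_ne_zero).1 ?_
        refine le_of_mul_le_mul_right ?_ (show 0 < ‖v‖ ^ 2 by positivity)
        linarith
    refine ContinuousLinearMap.opNorm_le_bound _ (by positivity) fun w => ?_
    have hlin : fderiv ℝ F g w = √t * ∑ i, w i * (Jet.mom μ f).d i p := by
      have hL : HasFDerivAt (fun g : Space n => ((t, √t • g) : Par n))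
          ((0 : Space n →L[ℝ] ℝ).prod (√t • ContinuousLinearMap.id ℝ (Space n))) g :=
        (hasFDerivAt_const t g).prodMk ((hasFDerivAt_id g).const_smul √t)
      have hM := (differentiable_M hμ ha p).hasFDerivAt.comp g hL
      rw [show F = M μ f ∘ fun g : Space n => ((t, √t • g) : Par n) from rfl, hM.fderiv,
        ContinuousLinearMap.comp_apply, ContinuousLinearMap.prod_apply]
      simp only [_root_.zero_apply, _root_.smul_apply, ContinuousLinearMap.id_apply]
      rw [show (((0 : ℝ), √t • w) : Par n) = √t • ((0 : ℝ), w) by simp, map_smul, dir_decomp w,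
        map_sum, smul_eq_mul]
      refine congrArg _ (Finset.sum_congr rfl fun i _ => ?_)
      rw [map_smul, smul_eq_mul]
      congr 1
      have hline : HasDerivAt (fun r : ℝ => p + r • ex i) (ex i) 0 := by
        simpa using ((hasDerivAt_id (0 : ℝ)).smul_const (ex i)).const_add p
      exact ((differentiable_M hμ ha p).hasFDerivAt.comp_hasDerivAt_of_eq (0 : ℝ) hline
        (by simp)).unique ((Jet.mom_valid hμ ha).hd i p)
    rw [hlin, norm_mul, Real.norm_eq_abs, Real.norm_eq_abs, abs_of_nonneg (Real.sqrt_nonneg t)]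
    have hcs : |∑ i, w i * (Jet.mom μ f).d i p| ≤ ‖w‖ * ‖v‖ := by
      have e : ∑ i, w i * (Jet.mom μ f).d i p
          = inner ℝ w (WithLp.toLp 2 fun i => (Jet.mom μ f).d i p) := by
        simp [PiLp.inner_apply, mul_comm]
      rw [e]
      refine (abs_real_inner_le_norm _ _).trans (mul_le_mul_of_nonneg_left (le_of_eq ?_) (norm_nonneg _))
      refine (sq_eq_sq₀ (norm_nonneg _) (norm_nonneg _)).1 ?_
      rw [hv, EuclideanSpace.norm_sq_eq, grad2]
      exact Finset.sum_congr rfl fun i _ => by rw [Real.norm_eq_abs, sq_abs]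
    calc √t * |∑ i, w i * (Jet.mom μ f).d i p| ≤ √t * (‖w‖ * (2 / t)) :=
          mul_le_mul_of_nonneg_left (hcs.trans (mul_le_mul_of_nonneg_left hvb (norm_nonneg _)))
            (Real.sqrt_nonneg t)
      _ = 2 / √t * ‖w‖ := by
          have h1 := Real.sq_sqrt ht.le
          have h2 : √t ≠ 0 := (Real.sqrt_pos.2 ht).ne'
          field_simp
          linear_combination ‖w‖ * h1
  set m := ∫ g, F (T g) ∂gam n with hm
  have key : ∀ s : ℝ,
      ∫ x, Real.exp (s * f x) ∂μ ≤ Real.exp (2 / 3 * r + 97 * s ^ 2 / t + s * m) := by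
    intro s
    have hEa : Adm R fun x => Real.exp (s * f x) := adm_continuous (by fun_prop) R
    have htilt : ∀ g, M μ (fun x => Real.exp (s * f x)) (t, √t • g)
        ≤ Real.exp (s ^ 2 / (2 * t)) * Real.exp (s * F g) := by
      intro g
      set p : Par n := (t, √t • g)
      have hslc : IsSLC (0 + t) (tlt μ p) := hs.tlt p
      rw [zero_add] at hslc
      have h := hH n (tlt μ p) R (2 / t) 1 (hμ.tlt p) (by positivity) (fun u hu => hslc.lsi ht hu) f hf
        (fun x _ => hfd x) s
      rw [← M_eq] at h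
      have e : ∀ x, Real.exp (s * (f x - M μ f p)) = Real.exp (-(s * F g)) * Real.exp (s * f x) :=
        fun x => by rw [← Real.exp_add]; congr 1; simp only [hF]; ring
      simp only [e, ← M_eq, M_smul] at h
      rw [Real.exp_neg, inv_mul_le_iff₀ (Real.exp_pos _)] at h
      refine h.trans_eq ?_
      rw [mul_comm]; congr 2; field_simp; ring
    have hFc := hFd.continuous
    set ψ : Space n → ℝ := fun g => 3 * s * F (T g) with hψ
    have hψd : ContDiff ℝ 1 ψ := contDiff_const.mul (hFd.comp T.contDiff)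
    have hψl : ∀ g, ‖fderiv ℝ ψ g‖ ≤ 3 * |s| * (4 / √t) := by
      intro g
      have h1 : HasFDerivAt ψ ((3 * s) • (fderiv ℝ F (T g)).comp T) g :=
        ((hFd.differentiable one_ne_zero _).hasFDerivAt.comp g T.hasFDerivAt).const_mul (3 * s)
      rw [h1.fderiv, norm_smul, Real.norm_eq_abs, abs_mul, abs_of_nonneg (by norm_num : (0 : ℝ) ≤ 3)]
      refine mul_le_mul_of_nonneg_left ?_ (by positivity)
      refine (ContinuousLinearMap.opNorm_comp_le _ _).trans ?_
      refine (mul_le_mul (hgrad _) hTn (norm_nonneg _) (by positivity)).trans_eq ?_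
      ring
    have hb3 : ∀ g, |3 * s * F g| ≤ 3 * |s| * B := fun g => by
      rw [abs_mul, abs_mul, abs_of_nonneg (by norm_num : (0 : ℝ) ≤ 3)]
      exact mul_le_mul_of_nonneg_left (hB _) (by positivity)
    have hexp := gam_exp_lip_le hψd (B := 3 * |s| * B) (fun g => hb3 (T g)) hψl
    have hψm : ∫ g, ψ g ∂gam n = 3 * s * m := integral_const_mul (3 * s) _
    have hl2 : 2 * (3 * |s| * (4 / √t)) ^ 2 = 288 * s ^ 2 / t := by
      rw [mul_pow, mul_pow, sq_abs, div_pow, Real.sq_sqrt ht.le]; ring
    rw [hψm, hl2] at hexp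
    set β := 3 * s * m + 288 * s ^ 2 / t with hβ
    set U : Space n → ℝ := fun g => Zf μ (t, √t • g) * wHalf μ t g with hU
    set W : Space n → ℝ := fun g => Real.exp (3 * s * F g) * Real.exp (t / 2 * qA μ g) with hW
    have iU : Integrable U (gam n) :=
      ((tame_Zf hμ t).mul (tame_wHalf hμ hS ht.le)).integrable
        (((continuous_Zf hμ).comp (by fun_prop)).mul (continuous_wHalf hμ t))
    have iW : Integrable W (gam n) := by
      simp only [hW]
      refine Integrable.mono' ((gam_exp_sq (n := n) (u := 1 / 4) (by norm_num)).1.const_mul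
        (Real.exp (3 * |s| * B))) (by fun_prop) (ae_of_all _ fun g => ?_)
      rw [Real.norm_eq_abs, abs_mul, Real.abs_exp, Real.abs_exp]
      exact mul_le_mul (Real.exp_le_exp.2 ((le_abs_self _).trans (hb3 g)))
        (Real.exp_le_exp.2 (mul_le_mul (by linarith) (qA_le_norm_sq hμ hS g) (qA_nonneg hμ g)
          (by norm_num))) (Real.exp_pos _).le (Real.exp_pos _).le
    have hEt : Et μ t (fun p => Real.exp (s * M μ f p)) ≤ Real.exp (2 / 3 * r + 1 / 3 * β) := by
      have hpt : ∀ g, Real.exp (s * F g) * Zf μ (t, √t • g)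
          ≤ Real.exp (2 / 3 * r + 1 / 3 * β) * (2 / 3 * Real.exp (-r) * U g
            + 1 / 3 * Real.exp (-β) * Real.exp (-lN2 μ t) * W g) := fun g => by
        set L := Real.log (Zf μ (t, √t • g)) with hL
        have h := convexOn_exp.2 (mem_univ (-r + (L + 1 / 2 * lr μ t g)))
          (mem_univ (-β + -lN2 μ t + (3 * s * F g + t / 2 * qA μ g)))
          (show (0 : ℝ) ≤ 2 / 3 by norm_num) (show (0 : ℝ) ≤ 1 / 3 by norm_num) (by norm_num)
        simp only [smul_eq_mul] at h
        have e : Real.exp (s * F g) * Zf μ (t, √t • g) = Real.exp (2 / 3 * r + 1 / 3 * β)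
            * Real.exp (2 / 3 * (-r + (L + 1 / 2 * lr μ t g))
              + 1 / 3 * (-β + -lN2 μ t + (3 * s * F g + t / 2 * qA μ g))) := by
          rw [← Real.exp_add, ← Real.exp_log (Zf_pos hμ (t, √t • g)), ← Real.exp_add]
          congr 1
          simp only [lr, hL]
          ring
        rw [e]
        refine (mul_le_mul_of_nonneg_left h (Real.exp_pos _).le).trans_eq ?_
        simp only [Real.exp_add, hL, Real.exp_log (Zf_pos hμ (t, √t • g)), hU, hW, wHalf]
        ring
      refine (integral_mono_of_nonneg (ae_of_all _ fun g => mul_nonneg (Real.exp_pos _).le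
        (Zf_pos hμ _).le) (((iU.const_mul _).add (iW.const_mul _)).const_mul _)
        (ae_of_all _ hpt)).trans ?_
      simp only [Pi.add_apply]
      rw [integral_const_mul, integral_add (iU.const_mul _) (iW.const_mul _), integral_const_mul,
        integral_const_mul]
      refine mul_le_of_le_one_right (Real.exp_pos _).le ?_
      simp only [hW]
      rw [hquad fun g => Real.exp (3 * s * F g)]
      have h1 := mul_le_mul_of_nonneg_left hhalf (show 0 ≤ 2 / 3 * Real.exp (-r) by positivity)
      have h2 := mul_le_mul_of_nonneg_left hexp (show 0 ≤ 1 / 3 * Real.exp (-β) by positivity)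
      have er : Real.exp (-r) * Real.exp r = 1 := by rw [← Real.exp_add]; simp
      have eb : Real.exp (-β) * Real.exp β = 1 := by rw [← Real.exp_add]; simp
      have en : Real.exp (-lN2 μ t) * Real.exp (lN2 μ t) = 1 := by rw [← Real.exp_add]; simp
      calc 2 / 3 * Real.exp (-r) * ∫ g, U g ∂gam n + 1 / 3 * Real.exp (-β) * Real.exp (-lN2 μ t)
            * (Real.exp (lN2 μ t) * ∫ g, Real.exp (3 * s * F (T g)) ∂gam n)
          = 2 / 3 * Real.exp (-r) * ∫ g, U g ∂gam n + 1 / 3 * Real.exp (-β)
            * (Real.exp (-lN2 μ t) * Real.exp (lN2 μ t))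
            * ∫ g, Real.exp (3 * s * F (T g)) ∂gam n := by ring
        _ ≤ 2 / 3 * (Real.exp (-r) * Real.exp r) + 1 / 3 * (Real.exp (-β) * Real.exp β) := by
            rw [en, mul_one]
            linarith
        _ = 1 := by rw [er, eb]; norm_num
    have hMo : Obs (M μ fun x => Real.exp (s * f x)) := obs_M hμ hEa
    have hFo : Obs fun p : Par n => Real.exp (s * M μ f p) :=
      (obs_M hμ ha).comp_continuous (g := fun u => Real.exp (s * u)) (by fun_prop)
    rw [← Et_M hμ hEa ht.le]
    refine (Et_mono hμ hMo ((Obs.const _).mul hFo) t htilt).trans ?_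
    rw [Et_smul]
    refine (mul_le_mul_of_nonneg_left hEt (Real.exp_pos _).le).trans ?_
    rw [← Real.exp_add]
    refine Real.exp_le_exp.2 ?_
    rw [hβ, show s ^ 2 / (2 * t) = 1 / 2 * (s ^ 2 / t) by ring,
      show 288 * s ^ 2 / t = 288 * (s ^ 2 / t) by ring, show 97 * s ^ 2 / t = 97 * (s ^ 2 / t) by ring]
    have : 0 ≤ s ^ 2 / t := by positivity
    linarith
  set m0 := ∫ y, f y ∂μ with hm0
  have hj : ∀ s : ℝ, s * m0 ≤ 2 / 3 * r + 97 * s ^ 2 / t + s * m := by
    intro s
    refine Real.exp_le_exp.1 (le_trans ?_ (key s))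
    rw [hm0, ← integral_const_mul]
    exact convexOn_exp.map_integral_le Real.continuous_exp.continuousOn isClosed_univ
      (ae_of_all _ fun _ => mem_univ _) (hμ.int_cont (by fun_prop)) (hμ.int_cont (by fun_prop))
  have e : ∀ x, Real.exp (s0 * (f x - m0)) = Real.exp (-(s0 * m0)) * Real.exp (s0 * f x) := fun x => by
    rw [← Real.exp_add]; congr 1; ring
  simp only [e, integral_const_mul]
  refine (mul_le_mul_of_nonneg_left (key s0) (Real.exp_pos _).le).trans ?_
  rw [← Real.exp_add]
  refine Real.exp_le_exp.2 ?_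
  have h1 := hj (-s0)
  rw [neg_sq] at h1
  rw [show 194 / t * s0 ^ 2 = 2 * (97 * s0 ^ 2 / t) by ring]
  linarith

end Vale.Agent.P245
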