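import Vale.Agent.P245.Tail
import Vale.Agent.P245.Push.Replica
import Vale.Agent.P245.Push.LevelEnt

/-!
The energy of the channel against its Gaussian reference: the squared barycentre grows at most like
the second moment of the covariance, up to `t ^ 2 n` and a power `n ^ (4 / q)`.
-/

noncomputable section

open MeasureTheory ProbabilityTheory Set Filter Topology Matrix
open scoped ENNReal

namespace Vale.Agent.P245

variable {n : ℕ} {μ ν : Measure (Space n)} {R : ℝ}

/-- The squared norm of the third moment tensor. -/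
theorem tensX_zero_le (hν : Car ν R) {Q V : ℝ} (hQ0 : 0 ≤ Q) (hV0 : 0 ≤ V) (hQ : QBound ν Q)
    (hop : ∀ v, v ⬝ᵥ covM ν *ᵥ v ≤ V * (v ⬝ᵥ v)) :
    tensX ν 0 ≤ 4 * Q * V ^ 2 * n ∧ 0 ≤ tensX ν 0 := by
  have := hν.prob
  have hX : tensX ν 0 = ∑ j, ∑ i, ∑ l, tens ν j i l ^ 2 := by
    refine Finset.sum_congr rfl fun j _ => ?_
    simp only [pow_zero, Matrix.one_mul, Matrix.trace, Matrix.diag_apply, Matrix.mul_apply]
    refine Finset.sum_congr rfl fun i _ => Finset.sum_congr rfl fun l _ => ?_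
    rw [sq]
    congr 1
    exact congrFun (congrFun (tens_transpose j) i) l
  refine ⟨?_, by rw [hX]; positivity⟩
  rw [hX]
  refine (Finset.sum_le_sum (g := fun _ => 4 * Q * V ^ 2) fun j _ => ?_).trans
    (le_of_eq (by rw [Finset.sum_const, Finset.card_univ, Fintype.card_fin, nsmul_eq_mul]; ring))
  set c := tens ν j
  set S := ∑ i, ∑ l, c i l ^ 2 with hS
  set P : Space n → ℝ := fun x => qform c (cen ν x) with hP
  have hPc : Continuous P := by simp only [hP]; fun_prop
  have hi : ∀ f : Space n → ℝ, Continuous f → Integrable f ν := fun f hf => hν.int_cont hf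
  have hS0 : 0 ≤ S := by positivity
  have hSeq : S = ∫ x, cen ν x j * (P x - ∫ y, P y ∂ν) ∂ν := by
    simp only [mul_sub]
    rw [integral_sub (hi _ (by fun_prop)) (hi _ (by fun_prop)), integral_mul_const,
      integral_cen hν, zero_mul, sub_zero]
    simp only [hP, qform, dotProduct, Matrix.mulVec, Finset.mul_sum]
    rw [integral_finsetSum _ fun i _ => hi _ (by fun_prop)]
    refine Finset.sum_congr rfl fun i _ => ?_
    rw [integral_finsetSum _ fun l _ => hi _ (by fun_prop)]
    refine Finset.sum_congr rfl fun l _ => ?_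
    rw [sq]
    conv_lhs => arg 2; simp only [c, tens]
    rw [← integral_const_mul]
    exact integral_congr_ae (ae_of_all _ fun x => by ring)
  have hj : ∫ x, cen ν x j ^ 2 ∂ν ≤ V := by
    have h := hop (Pi.single j 1)
    simpa [covM, sq] using h
  have hN : ∫ x, qnorm c (cen ν x) ∂ν ≤ V * S := by
    simp only [qnorm, dotProduct]
    rw [integral_finsetSum _ fun i _ => hi _ (by unfold Matrix.mulVec dotProduct; fun_prop),
      hS, Finset.mul_sum]
    refine Finset.sum_le_sum fun i _ => ?_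
    have h := hop (c i)
    rw [← integral_dot_sq hν] at h
    simpa [Matrix.mulVec, sq, dotProduct] using h
  have h1 := cs_sq hν (f := fun x => cen ν x j) (g := fun x => P x - ∫ y, P y ∂ν) (by fun_prop)
    (hPc.sub continuous_const)
  rw [← hSeq] at h1
  have h2 : ∫ x, (P x - ∫ y, P y ∂ν) ^ 2 ∂ν ≤ 4 * Q * (V * S) :=
    (hQ c (tens_transpose j)).trans (mul_le_mul_of_nonneg_left hN (by positivity))
  have h3 : S ^ 2 ≤ 4 * Q * V ^ 2 * S :=
    (h1.trans (mul_le_mul hj h2 (integral_nonneg fun x => sq_nonneg _) hV0)).trans_eq (by ring)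
  rcases hS0.eq_or_lt with h0 | h0
  · rw [← h0]; positivity
  · exact le_of_mul_le_mul_right (by linarith) h0

theorem trace_pow_le_of_op (hν : Car ν R) {V : ℝ}
    (hop : ∀ v, v ⬝ᵥ covM ν *ᵥ v ≤ V * (v ⬝ᵥ v)) (q : ℕ) : trace (covM ν ^ q) ≤ n * V ^ q := by
  obtain ⟨U, lam, hE⟩ := exists_eig (posSemidef_covM hν)
  rw [hE.trace_pow]
  refine (Finset.sum_le_sum (g := fun _ => V ^ q) fun i _ =>
    pow_le_pow_left₀ (hE.nonneg i) ?_ q).trans (by simp)
  have h := hop fun j => U j i
  have e1 : (fun j => U j i) ⬝ᵥ covM ν *ᵥ (fun j => U j i) = lam i := by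
    have h2 := congrFun (congrFun hE.diag_eq i) i
    rw [Matrix.diagonal_apply_eq] at h2
    rw [← h2]
    simp only [Matrix.mul_apply, Matrix.transpose_apply, dotProduct, Matrix.mulVec, Finset.mul_sum,
      Finset.sum_mul]
    rw [Finset.sum_comm]
    exact Finset.sum_congr rfl fun a _ => Finset.sum_congr rfl fun b _ => by ring
  have e2 : (fun j => U j i) ⬝ᵥ (fun j => U j i) = 1 := by
    have h2 := congrFun (congrFun hE.left i) i
    rw [Matrix.one_apply_eq] at h2
    rw [← h2]
    simp [Matrix.mul_apply, dotProduct]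
  rw [e1, e2, mul_one] at h
  exact h

theorem sum_covM_sq (_hν : Car ν R) : ∑ i, ∑ j, covM ν i j ^ 2 = trace (covM ν ^ 2) := by
  simp only [pow_two (covM ν), Matrix.trace, Matrix.diag_apply, Matrix.mul_apply]
  refine Finset.sum_congr rfl fun i _ => Finset.sum_congr rfl fun j _ => ?_
  rw [sq]
  congr 1
  exact (congrFun (congrFun (covM_transpose (ν := ν)) i) j).symm

theorem trace_sq_eq_covT (hμ : Car μ R) (hS : Sub1 μ) : trace (covM μ ^ 2) = covT μ := by
  obtain ⟨U, lam, hE⟩ := exists_eig (posSemidef_covM hμ)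
  rw [hE.trace_pow, covT_eq hE hS hμ]

theorem integral_exp_tail {y : ℝ} (hy : 0 ≤ y) : y ^ 3 * Real.exp (-y) ≤ 6 := by
  have h := Real.pow_div_factorial_le_exp y hy 3
  rw [div_le_iff₀ (by positivity)] at h
  rw [Real.exp_neg, mul_inv_le_iff₀ (Real.exp_pos _)]
  norm_num [Nat.factorial] at h
  linarith

/-- The growth of the second moment of the covariance along the channel. -/
theorem pot_two_le {q : ℕ} (hq : 4 ≤ q) :
    ∃ C c : ℝ, 1 ≤ C ∧ 0 < c ∧ c ≤ 1 ∧ ∀ (n : ℕ) (μ : Measure (Space n)) (R : ℝ), 1 ≤ n →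
      IsSLC 0 μ → Sub1 μ → Car μ R → ∀ s : ℝ, 0 ≤ s → s * (n : ℝ) ^ ((q : ℝ)⁻¹) ≤ c →
        Et μ s (pot μ 2) ≤ covT μ + C * s * n * ((n : ℝ) ^ ((q : ℝ)⁻¹)) ^ 4 := by
  obtain ⟨ρ, c, hρ, hc, hc1, htail⟩ := potentialTail hq 1 le_rfl
  obtain ⟨A, hA, hquad⟩ := quad_bound hq
  refine ⟨32 * A * ρ ^ 3 + 32 * 8 * (6 / c ^ 3), c, ?_, hc, hc1,
    fun n μ R hn hs hS hμ s hs0 hsN => ?_⟩
  · have : 0 ≤ 32 * 8 * (6 / c ^ 3) := by positivity
    nlinarith [one_le_pow₀ hρ (n := 3)]
  have := hμ.prob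
  set N := (n : ℝ) ^ ((q : ℝ)⁻¹) with hN
  have hN1 : 1 ≤ N := Real.one_le_rpow (by exact_mod_cast hn) (by positivity)
  have hN0 : 0 < N := by linarith
  set D := (32 * A * ρ ^ 3 + 32 * 8 * (6 / c ^ 3)) * n * N ^ 4
  have hJ := potJet_valid (n := n) hμ 2
  have hJv : (potJet μ 2).v = pot μ 2 := funext fun p => potJet_v hμ 2 p
  have hLop : ∀ p : Par n, Lop μ (potJet μ 2) p ≤ 8 * tensX (tlt μ p) 0 := by
    intro p
    obtain ⟨U, lam, hE⟩ := exists_eig (posSemidef_covM (hμ.tlt p))
    have h := trace_lMat_le hμ p hE 0 2 0 (by omega)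
    rw [pow_zero, Matrix.mul_one] at h
    rw [potJet, Lop_sum]
    refine h.trans (le_of_eq ?_)
    push_cast
    ring
  have key := Et_sub_le hμ hJ le_rfl hs0 (B := fun u => D * u) (B' := fun _ => D) (by fun_prop)
    (fun u _ => by simpa using (hasDerivAt_id u).const_mul D) fun u hu => ?_
  · rw [hJv, Et_zero hμ, pot, tlt_zero μ, trace_sq_eq_covT hμ hS] at key
    linarith [show D * s = (32 * A * ρ ^ 3 + 32 * 8 * (6 / c ^ 3)) * s * n * N ^ 4 by ring]
  have hu0 : 0 < u := hu.1
  have huN : u * N ≤ c := (mul_le_mul_of_nonneg_right hu.2.le hN0.le).trans hsN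
  obtain ⟨w, hw, hw0, hgood, hbad⟩ := htail n μ R hn hs hS hμ u hu0 huN
  have how : Obs fun p => min (w p) 1 := hw.comp_continuous (g := fun v => min v 1) (by fun_prop)
  set E1 := 32 * A * ρ ^ 3 * n * N ^ 4 with hE1
  set E2 := 32 * 8 * (n : ℝ) / u ^ 3 with hE2
  have hpt : ∀ z : Space n, Lop μ (potJet μ 2) (u, √u • z) ≤ E1 + E2 * min (w (u, √u • z)) 1 := by
    intro z
    set p : Par n := (u, √u • z)
    have h2 : IsSLC (0 + u) (tlt μ p) := hs.tlt p
    rw [zero_add] at h2
    refine (hLop p).trans ?_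
    by_cases hlt : w p < 1
    · have hop : ∀ v, v ⬝ᵥ covM (tlt μ p) *ᵥ v ≤ ρ * N * (v ⬝ᵥ v) := fun v => by
        rw [← var_dot_eq (hμ.tlt p)]
        refine (hgood p hlt _).trans_eq ?_
        rw [EuclideanSpace.norm_sq_eq]
        simp [dotProduct, sq, hN]
      have hQ := hquad n hn (tlt μ p) u (ρ * N) h2 hu0 (by positivity)
        (trace_pow_le_of_op (hμ.tlt p) hop q)
      have h := (tensX_zero_le (hμ.tlt p) (by positivity) (by positivity) hQ hop).1
      refine le_trans ?_ (le_add_of_nonneg_right (mul_nonneg (by positivity)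
        (le_min (hw0 p) zero_le_one)))
      rw [← hN] at h
      linarith [show 8 * (4 * (A * N * (ρ * N)) * (ρ * N) ^ 2 * (n : ℝ)) = E1 by rw [hE1]; ring]
    · rw [min_eq_right (not_lt.1 hlt), mul_one]
      have h := (tensX_zero_le (hμ.tlt p) (show 0 ≤ 2 / u by positivity) (by positivity)
        (h2.qbound hu0) (h2.op_le hu0)).1
      refine le_trans ?_ (le_add_of_nonneg_left (by positivity))
      linarith [show 8 * (4 * (2 / u) * (2 / u) ^ 2 * (n : ℝ)) = E2 by rw [hE2]; ring]
  refine (Et_mono hμ (hJ.obs_Lop hμ) ((Obs.const E1).add ((Obs.const E2).mul how)) u hpt).trans ?_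
  rw [Et_add hμ (Obs.const E1) ((Obs.const E2).mul how), Et_const hμ _ hu0.le, Et_smul]
  have hwE : Et μ u (fun p => min (w p) 1) ≤ Real.exp (-(c / (u * N))) := by
    refine (Et_mono hμ how hw u fun z => min_le_left _ _).trans (hbad.trans_eq ?_)
    rw [one_mul]
  have htail' : E2 * Real.exp (-(c / (u * N))) ≤ 32 * 8 * (6 / c ^ 3) * n * N ^ 4 := by
    set y := c / (u * N) with hy
    have e : E2 * Real.exp (-y) = 32 * 8 * n * N ^ 3 / c ^ 3 * (y ^ 3 * Real.exp (-y)) := by
      rw [hE2, hy]; field_simp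
    rw [e]
    refine (mul_le_mul_of_nonneg_left (integral_exp_tail (by positivity)) (by positivity)).trans ?_
    calc 32 * 8 * (n : ℝ) * N ^ 3 / c ^ 3 * 6 = 32 * 8 * (6 / c ^ 3) * n * N ^ 3 := by ring
      _ ≤ _ := mul_le_mul_of_nonneg_left (pow_le_pow_right₀ hN1 (by norm_num)) (by positivity)
  linarith [mul_le_mul_of_nonneg_left hwE (show 0 ≤ E2 by positivity)]

/-- The jet of the squared barycentre. -/
def barJet (μ : Measure (Space n)) : Jet n :=
  Jet.sum fun i => (Jet.mom μ fun x => x i).mul (Jet.mom μ fun x => x i)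

theorem barJet_valid (hμ : Car μ R) : (barJet (n := n) μ).Valid :=
  Jet.Valid.sum fun _ => (Jet.mom_valid hμ (adm_continuous (by fun_prop) R)).mul
    (Jet.mom_valid hμ (adm_continuous (by fun_prop) R))

theorem barJet_Lop (hμ : Car μ R) (p : Par n) : Lop μ (barJet μ) p = pot μ 2 p := by
  rw [barJet, Lop_sum, pot, ← sum_covM_sq (hμ.tlt p)]
  refine Finset.sum_congr rfl fun i _ => ?_
  rw [Lop_mul, Lop_mom hμ (adm_continuous (R := R) (φ := fun x : Space n => x i) (by fun_prop))]
  simp only [zero_mul, mul_zero, zero_add]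
  refine Finset.sum_congr rfl fun j _ => ?_
  rw [cov_expand hμ, sq]
  simp only [Jet.mom, bar]

/-- The squared barycentre. -/
def bsq (μ : Measure (Space n)) (p : Par n) : ℝ := ∑ i, bar μ i p ^ 2

theorem bsq_le {q : ℕ} (hq : 4 ≤ q) :
    ∃ C c : ℝ, 1 ≤ C ∧ 0 < c ∧ c ≤ 1 ∧ ∀ (n : ℕ) (μ : Measure (Space n)) (R : ℝ), 1 ≤ n →
      IsSLC 0 μ → Sub1 μ → Car μ R → ∀ t : ℝ, 0 ≤ t → t * (n : ℝ) ^ ((q : ℝ)⁻¹) ≤ c →
        Et μ t (bsq μ) ≤ t * covT μ + C * t ^ 2 * n * ((n : ℝ) ^ ((q : ℝ)⁻¹)) ^ 4 := by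
  obtain ⟨C, c, hC, hc, hc1, hpot⟩ := pot_two_le hq
  refine ⟨C, c, hC, hc, hc1, fun n μ R hn hs hS hμ t ht htN => ?_⟩
  have := hμ.prob
  set N := (n : ℝ) ^ ((q : ℝ)⁻¹)
  have hN0 : 0 ≤ N := by positivity
  have e : (barJet μ).v = bsq μ := funext fun p => by
    simp [barJet, Jet.sum, Jet.mul, Jet.mom, bsq, bar, sq]
  have hL : Lop μ (barJet μ) = pot μ 2 := funext (barJet_Lop hμ)
  set D := covT μ + C * t * n * N ^ 4
  have key := Et_sub_le hμ (barJet_valid hμ) le_rfl ht (B := fun u => D * u) (B' := fun _ => D)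
    (by fun_prop) (fun u _ => by simpa using (hasDerivAt_id u).const_mul D) fun u hu => by
      rw [hL]
      refine (hpot n μ R hn hs hS hμ u hu.1.le
        ((mul_le_mul_of_nonneg_right hu.2.le hN0).trans htN)).trans ?_
      simp only [D]
      have : C * u * n * N ^ 4 ≤ C * t * n * N ^ 4 := by gcongr; exact hu.2.le
      linarith
  have h0 : bsq μ (0 : Par n) = 0 := by
    simp only [bsq, bar, M_zero hμ]
    refine Finset.sum_eq_zero fun i _ => ?_
    simp [hS.integral_cen_eq hμ i]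
  rw [e, Et_zero hμ, h0] at key
  simp only [D] at key
  linarith [show (covT μ + C * t * n * N ^ 4) * t = t * covT μ + C * t ^ 2 * n * N ^ 4 by ring]

theorem gam_inner_sq (v : Space n) :
    ∫ g, inner ℝ v g ^ 2 ∂gam n = ‖v‖ ^ 2 ∧ ∫ g, inner ℝ v g ∂gam n = 0 := by
  have h0 := integral_strongDual_stdGaussian (E := Space n) (innerSL ℝ v)
  have h1 := variance_dual_stdGaussian (E := Space n) (innerSL ℝ v)
  rw [innerSL_apply_norm, variance_eq_integral (innerSL ℝ v).continuous.aemeasurable, h0] at h1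
  simp only [innerSL_apply_apply, sub_zero] at h0 h1
  exact ⟨h1, h0⟩

/-- The squared deviation of the barycentre from the linear reference. -/
def devSq (μ : Measure (Space n)) (t : ℝ) (g : Space n) : ℝ :=
  ∑ i, (bar μ i (t, √t • g) - √t * (covL μ g) i) ^ 2

theorem sum_coord_covL (g x : Space n) :
    ∑ i, x i * (covL μ g) i = inner ℝ x (covL μ g) := by
  simp [PiLp.inner_apply, mul_comm]

theorem covT_eq_trace (hμ : Car μ R) (hS : Sub1 μ) :
    ∑ i, ∫ g, (covL μ g) i ^ 2 ∂gam n = covT μ := by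
  rw [← trace_sq_eq_covT hμ hS, ← sum_covM_sq hμ]
  refine Finset.sum_congr rfl fun i _ => ?_
  have e : ∀ g : Space n, (covL μ g) i = inner ℝ (WithLp.toLp 2 (covM μ i)) g := fun g => by
    rw [covL_apply]; simp [PiLp.inner_apply, Matrix.mulVec, dotProduct, mul_comm]
  simp only [e, (gam_inner_sq _).1, EuclideanSpace.norm_sq_eq]
  simp

/-- The energy of the channel against the reference. -/
theorem energy_le {q : ℕ} (hq : 4 ≤ q) :
    ∃ C c : ℝ, 1 ≤ C ∧ 0 < c ∧ c ≤ 1 ∧ ∀ (n : ℕ) (μ : Measure (Space n)) (R : ℝ), 1 ≤ n →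
      IsSLC 0 μ → Sub1 μ → Car μ R → ∀ t : ℝ, 0 ≤ t → t * (n : ℝ) ^ ((q : ℝ)⁻¹) ≤ c →
        Integrable (fun g => devSq μ t g * Zf μ (t, √t • g)) (gam n) ∧
        ∫ g, devSq μ t g * Zf μ (t, √t • g) ∂gam n
          ≤ C * t ^ 2 * n * ((n : ℝ) ^ ((q : ℝ)⁻¹)) ^ 4 := by
  obtain ⟨C, c, hC, hc, hc1, hb⟩ := bsq_le hq
  refine ⟨C + 1, c, by linarith, hc, hc1, fun n μ R hn hs hS hμ t ht htN => ?_⟩
  have := hμ.prob
  set N := (n : ℝ) ^ ((q : ℝ)⁻¹)
  have hN1 : 1 ≤ N := Real.one_le_rpow (by exact_mod_cast hn) (by positivity)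
  set Z := fun g : Space n => Zf μ (t, √t • g) with hZ
  set a := fun (i : Fin n) (g : Space n) => (covL μ g) i with ha
  have hac : ∀ i, Continuous (a i) := fun i => by simp only [ha]; fun_prop
  have haT : ∀ i, Tame (a i) := fun i => Tame.of_lin (A := 0) (B := ‖covL μ‖) fun g => by
    rw [zero_add]; exact (abs_coord_le _ i).trans ((covL μ).le_opNorm g)
  have hZc : Continuous Z := (continuous_Zf hμ).comp (by fun_prop)
  have hZT : Tame Z := tame_Zf hμ t
  have hxa : ∀ i : Fin n, Adm R fun x : Space n => x i := fun i => adm_continuous (by fun_prop) R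
  have hN' : ∀ i g, Nf μ (fun x => x i) (t, √t • g) = bar μ i (t, √t • g) * Z g := fun i g => by
    rw [bar, M, hZ, div_mul_cancel₀ _ (Zf_pos hμ _).ne']
  have hbc : ∀ i, Continuous fun g : Space n => bar μ i (t, √t • g) := fun i =>
    (differentiable_M hμ (hxa i)).continuous.comp (by fun_prop)
  have hbT : ∀ i, Tame fun g : Space n => bar μ i (t, √t • g) := fun i => by
    obtain ⟨B, hB⟩ := bounded_M hμ (hxa i)
    exact Tame.of_bdd fun g => hB _
  have i1 : Integrable (fun g => bsq μ (t, √t • g) * Z g) (gam n) :=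
    obs_Zf_mul hμ (Obs.sum _ fun i _ => (obs_bar hμ i).pow 2) t
  have i2 : ∀ i, Integrable (fun g => a i g * (bar μ i (t, √t • g) * Z g)) (gam n) := fun i =>
    ((haT i).mul ((hbT i).mul hZT)).integrable ((hac i).mul ((hbc i).mul hZc))
  have i3 : ∀ i, Integrable (fun g => a i g ^ 2 * Z g) (gam n) := fun i => by
    simp only [sq]
    exact (((haT i).mul (haT i)).mul hZT).integrable (((hac i).mul (hac i)).mul hZc)
  have hsplit : ∀ g, devSq μ t g * Z g = bsq μ (t, √t • g) * Z g
      - 2 * √t * ∑ i, a i g * (bar μ i (t, √t • g) * Z g) + t * ∑ i, a i g ^ 2 * Z g := fun g => by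
    simp only [devSq, bsq, ha, Finset.sum_mul, Finset.mul_sum, ← Finset.sum_sub_distrib,
      ← Finset.sum_add_distrib]
    refine Finset.sum_congr rfl fun i _ => ?_
    linear_combination ((covL μ g) i ^ 2 * Z g) * Real.sq_sqrt ht
  have hint : Integrable (fun g => devSq μ t g * Z g) (gam n) := by
    simp only [hsplit]
    exact (i1.sub ((integrable_finsetSum _ fun i _ => i2 i).const_mul _)).add
      ((integrable_finsetSum _ fun i _ => i3 i).const_mul _)
  refine ⟨hint, ?_⟩
  refine le_trans (le_of_eq (integral_congr_ae (ae_of_all _ hsplit))) ?_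
  rw [integral_add (f := fun g => bsq μ (t, √t • g) * Z g
      - 2 * √t * ∑ i, a i g * (bar μ i (t, √t • g) * Z g))
      (i1.sub ((integrable_finsetSum _ fun i _ => i2 i).const_mul _))
      ((integrable_finsetSum _ fun i _ => i3 i).const_mul _),
    integral_sub i1 ((integrable_finsetSum _ fun i _ => i2 i).const_mul _), integral_const_mul,
    integral_const_mul, integral_finsetSum _ fun i _ => i2 i, integral_finsetSum _ fun i _ => i3 i]
  have hint_aff : ∀ i (x : Space n),
      ∫ g, a i (g + √t • x) ∂gam n = √t * a i x ∧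
        ∫ g, a i (g + √t • x) ^ 2 ∂gam n = ∫ g, a i g ^ 2 ∂gam n + t * a i x ^ 2 := by
    intro i x
    have el : ∀ g : Space n, a i (g + √t • x) = a i g + √t * a i x := fun g => by
      simp [ha, map_add, map_smul]
    have e0 : ∫ g, a i g ∂gam n = 0 := by
      have e : ∀ g : Space n, a i g = inner ℝ (WithLp.toLp 2 (covM μ i)) g := fun g => by
        simp only [ha]; rw [covL_apply]; simp [PiLp.inner_apply, Matrix.mulVec, dotProduct, mul_comm]
      simp only [e, (gam_inner_sq _).2]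
    have ia := (haT i).integrable (hac i)
    have ia2 : Integrable (fun g => a i g ^ 2) (gam n) := by
      simp only [sq]; exact ((haT i).mul (haT i)).integrable ((hac i).mul (hac i))
    simp only [el]
    refine ⟨by rw [integral_add ia (integrable_const _), e0, integral_const]; simp, ?_⟩
    have e2 : ∀ g, (a i g + √t * a i x) ^ 2
        = a i g ^ 2 + (2 * (√t * a i x) * a i g + t * a i x ^ 2) := fun g => by
      linear_combination (a i x ^ 2) * Real.sq_sqrt ht
    simp only [e2]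
    rw [integral_add (g := fun g => 2 * (√t * a i x) * a i g + t * a i x ^ 2) ia2
        ((ia.const_mul _).add (integrable_const _)),
      integral_add (ia.const_mul _) (integrable_const _), integral_const_mul, e0, integral_const]
    simp
  have h2 : ∑ i, ∫ g, a i g * (bar μ i (t, √t • g) * Z g) ∂gam n = √t * covT μ := by
    have e : ∀ i, ∫ g, a i g * (bar μ i (t, √t • g) * Z g) ∂gam n
        = ∫ x, √t * (x i * a i x) ∂μ := fun i => by
      simp only [← hN']
      rw [shift_identity hμ ht (φ := fun x => x i) (by fun_prop) (hac i) (haT i)]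
      exact integral_congr_ae (ae_of_all _ fun x => by simp only [(hint_aff i x).1]; ring)
    simp only [e, integral_const_mul, ← Finset.mul_sum]
    rw [← integral_finsetSum _ fun i _ => hμ.int_cont (f := fun x => x i * a i x)
      ((by fun_prop : Continuous fun x : Space n => x i).mul (hac i)), covT]
    congr 1
  have h3 : ∑ i, ∫ g, a i g ^ 2 * Z g ∂gam n ≤ covT μ + t * n := by
    have e : ∀ i, ∫ g, a i g ^ 2 * Z g ∂gam n
        = ∫ g, a i g ^ 2 ∂gam n + t * ∫ x, a i x ^ 2 ∂μ := fun i => by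
      have hT2 : Tame fun g => a i g ^ 2 := by simp only [sq]; exact (haT i).mul (haT i)
      rw [show (fun g => a i g ^ 2 * Z g) = fun g => a i g ^ 2 * Nf μ (fun _ => 1) (t, √t • g) from rfl,
        shift_identity hμ ht (φ := fun _ => (1 : ℝ)) (G := fun g => a i g ^ 2) continuous_const
          ((hac i).pow 2) hT2]
      simp only [one_mul, (hint_aff i _).2]
      rw [integral_add (integrable_const _)
          ((hμ.int_cont (f := fun x => a i x ^ 2) ((hac i).pow 2)).const_mul t),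
        integral_const, integral_const_mul]
      simp
    simp only [e, Finset.sum_add_distrib, ← Finset.mul_sum]
    rw [covT_eq_trace hμ hS]
    refine add_le_add le_rfl (mul_le_mul_of_nonneg_left ?_ ht)
    rw [← integral_finsetSum _ fun i _ => hμ.int_cont (f := fun x => a i x ^ 2) ((hac i).pow 2)]
    refine (integral_mono (hμ.int_cont (by fun_prop)) (hμ.int_cont (by fun_prop)) fun x => ?_).trans
      (hS.norm_sq_le hμ)
    refine le_trans (le_of_eq ?_) (pow_le_pow_left₀ (norm_nonneg _) (norm_covL_le hS hμ x) 2)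
    rw [EuclideanSpace.norm_sq_eq]
    simp [ha]
  have h1 := hb n μ R hn hs hS hμ t ht htN
  rw [Et] at h1
  rw [h2]
  have h4 : t * (t * n) ≤ t ^ 2 * n * N ^ 4 := by
    have : 0 ≤ t ^ 2 * (n : ℝ) := by positivity
    nlinarith [one_le_pow₀ hN1 (n := 4)]
  have h5 : 2 * √t * (√t * covT μ) = 2 * t * covT μ := by
    linear_combination (2 * covT μ) * Real.mul_self_sqrt ht
  linarith [mul_le_mul_of_nonneg_left h3 ht]

end Vale.Agent.P245
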