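import Vale.Agent.P245.Quarter.Conc
import Vale.Agent.P245.Push.EntLevels
import Vale.Agent.P245.Poincare
import Vale.Agent.P245.Tighten

/-!
The core bound with exponent one quarter, by iterating the divergence bound.
-/

noncomputable section

open MeasureTheory Set Filter Topology
open scoped ENNReal

namespace Vale.Agent.P245

variable {n : ℕ}

theorem CoreBound.mono {β β' : ℝ} (h : CoreBound β) (hb : β ≤ β') : CoreBound β' := by
  obtain ⟨C, hC, h⟩ := h
  refine ⟨C, hC, fun n μ hn hs hS f hf => (h n μ hn hs hS f hf).trans ?_⟩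
  exact mul_le_mul_of_nonneg_right (mul_le_mul_of_nonneg_left
    (Real.rpow_le_rpow_of_exponent_le (Nat.one_le_cast.2 hn) hb) hC.le) (dir_nonneg f)

/-- One step of the iteration. -/
theorem coreBound_step {q : ℕ} (hq : 4 ≤ q) (hP : PoincareBound q) {β : ℝ} (hβ : β ≤ 1)
    (hL : CoreBound β) :
    CoreBound (max (1 / 4 + 3 * (q : ℝ)⁻¹) (β - 7 * (q : ℝ)⁻¹)) := by
  obtain ⟨P0, hP0, hP⟩ := hP
  obtain ⟨K0, hK0, hL⟩ := hL
  obtain ⟨C, c, hC, hc, hc1, hren⟩ := renyiHalf hq
  obtain ⟨Cl, hCl, hlev⟩ := levelEntOfConc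
  obtain ⟨Ce, hCe, hent⟩ := entOfLevelEnt
  have hC0 : 0 < C := by linarith
  set δ := min (c / 4) (1 / (C + C * K0)) with hδdef
  have hδ : 0 < δ := lt_min (by linarith) (by positivity)
  have hδc : δ ≤ c := (min_le_left _ _).trans (by linarith)
  have hδ4 : δ ≤ 1 / 4 := (min_le_left _ _).trans (by linarith)
  have hδ1 : δ ≤ 1 := by linarith
  have hδC : (C + C * K0) * δ ≤ 1 := by
    refine (mul_le_mul_of_nonneg_left (min_le_right _ _) (by positivity)).trans_eq ?_
    field_simp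
  have hCK : 0 ≤ C * K0 * δ := by positivity
  have hCd : C * δ ≤ 1 := by
    have : 0 ≤ C * K0 * δ := hCK
    linarith
  have hCKd : C * K0 * δ ≤ 1 := by
    have : 0 ≤ C * δ := by positivity
    linarith
  set A := 4 / 3 * (C * (1 + K0)) + 194 / δ + 1 with hA
  have hA0 : 0 ≤ 4 / 3 * (C * (1 + K0)) := by positivity
  have hA1 : 0 ≤ 194 / δ := by positivity
  set P1 := max P0 1 with hP1
  refine ⟨Ce * (Cl * A * P1), by positivity, fun n μ hn hs hS f hf => ?_⟩
  obtain ⟨R, hμ⟩ := hs.car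
  set x : ℝ := (n : ℝ) with hxdef
  have hx1 : 1 ≤ x := Nat.one_le_cast.2 hn
  have hx0 : 0 < x := by linarith
  have hq0 : (0 : ℝ) < q := by exact_mod_cast (show 0 < q by omega)
  set e := (q : ℝ)⁻¹ with he
  have he0 : 0 < e := inv_pos.2 hq0
  have hrp : ∀ a : ℝ, 0 ≤ x ^ a := fun a => Real.rpow_nonneg hx0.le a
  have hmono : ∀ {a b : ℝ}, a ≤ b → x ^ a ≤ x ^ b := fun h => Real.rpow_le_rpow_of_exponent_le hx1 h
  have hone : ∀ a : ℝ, 0 ≤ a → 1 ≤ x ^ a := fun a ha => Real.one_le_rpow hx1 ha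
  have hle1 : ∀ a : ℝ, a ≤ 0 → x ^ a ≤ 1 := fun a ha => Real.rpow_le_one_of_one_le_of_nonpos hx1 ha
  have hpp : ∀ a b : ℝ, x ^ a * x ^ b = x ^ (a + b) := fun a b => (Real.rpow_add hx0 a b).symm
  have hp1 : ∀ a : ℝ, x ^ a * x = x ^ (a + 1) := fun a => (Real.rpow_add_one hx0.ne' a).symm
  set K := K0 * x ^ β with hKdef
  have hK : 0 ≤ K := by positivity
  have hLSI : LSIle μ K := fun g hg => hL n μ hn hs hS g hg
  set γ := max (1 / 4 + 2 * e) (β - 8 * e) with hγ
  have hγ1 : 1 / 4 + 2 * e ≤ γ := le_max_left _ _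
  have hγ2 : β - 8 * e ≤ γ := le_max_right _ _
  set b := 1 / 4 + 2 * e with hb
  set t := δ * x ^ (-b) with ht
  have hxb : x ^ (-b) ≤ 1 := hle1 _ (by linarith)
  have ht0 : 0 < t := by positivity
  have htd : t ≤ δ := mul_le_of_le_one_right hδ.le hxb
  have hCt : C * t ≤ 1 := (mul_le_mul_of_nonneg_left htd (by linarith)).trans hCd
  have htN : t * x ^ e ≤ c := by
    rw [ht, mul_assoc, hpp]
    exact (mul_le_of_le_one_right hδ.le (hle1 _ (by linarith))).trans hδc
  have ht3 : t ^ 3 = δ ^ 3 * x ^ (-3 * b) := by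
    rw [ht, mul_pow, ← Real.rpow_natCast (x ^ (-b)), ← Real.rpow_mul hx0.le]
    congr 2; push_cast; ring
  have ht4 : t ^ 4 = δ ^ 4 * x ^ (-4 * b) := by
    rw [ht, mul_pow, ← Real.rpow_natCast (x ^ (-b)), ← Real.rpow_mul hx0.le]
    congr 2; push_cast; ring
  have hKt : C * K * t ^ 4 ≤ 1 := by
    rw [ht4, hKdef]
    calc C * (K0 * x ^ β) * (δ ^ 4 * x ^ (-4 * b))
        = C * K0 * δ ^ 4 * x ^ (β + -4 * b) := by rw [← hpp β]; ring
      _ ≤ C * K0 * δ * 1 := mul_le_mul (mul_le_mul_of_nonneg_left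
          (pow_le_of_le_one hδ.le hδ1 (by norm_num)) (by positivity)) (hle1 _ (by linarith))
          (hrp _) (by positivity)
      _ ≤ 1 := by rw [mul_one]; exact hCKd
  have hh := hren n μ R hn hs hS hμ t K ht0 hCt htN hK hLSI hKt
  have c0 := concOfHalf hs hμ hS ht0 (htd.trans hδ4) hh
  set Kc := A * x ^ γ with hKc
  have hxc := hone γ (by linarith)
  have hA2 : 1 ≤ A := by rw [hA]; linarith
  have hKc1 : 1 ≤ Kc := one_le_mul_of_one_le_of_one_le hA2 hxc
  have hcore : Conc μ Kc Kc := by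
    intro g hg hgd s
    refine (c0 g hg hgd s).trans (Real.exp_le_exp.2 (add_le_add ?_ (mul_le_mul_of_nonneg_right ?_
      (sq_nonneg s))))
    · have T3 : t ^ 3 * x * (x ^ e) ^ 4 ≤ x ^ γ := by
        rw [ht3, ← Real.rpow_natCast (x ^ e), ← Real.rpow_mul hx0.le, mul_assoc, mul_assoc,
          ← mul_assoc (x ^ (-3 * b)), hp1, hpp]
        exact (mul_le_of_le_one_left (hrp _) (pow_le_one₀ hδ.le hδ1)).trans
          (hmono (by push_cast; linarith))
      have T4 : K * t ^ 4 * x ≤ K0 * x ^ γ := by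
        rw [ht4, hKdef]
        calc K0 * x ^ β * (δ ^ 4 * x ^ (-4 * b)) * x
            = K0 * (δ ^ 4 * x ^ (β + -4 * b + 1)) := by rw [← hp1, ← hpp β]; ring
          _ ≤ _ := mul_le_mul_of_nonneg_left ((mul_le_of_le_one_left (hrp _)
              (pow_le_one₀ hδ.le hδ1)).trans (hmono (by linarith))) hK0.le
      calc 4 / 3 * (C * (t ^ 3 * x * (x ^ e) ^ 4 + K * t ^ 4 * x))
          ≤ 4 / 3 * (C * (x ^ γ + K0 * x ^ γ)) := by gcongr
        _ = 4 / 3 * (C * (1 + K0)) * x ^ γ := by ring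
        _ ≤ Kc := mul_le_mul_of_nonneg_right (by rw [hA]; linarith) (hrp _)
    · calc 194 / t = 194 / δ * x ^ b := by
            rw [ht, Real.rpow_neg hx0.le]; field_simp
        _ ≤ Kc := mul_le_mul (by rw [hA]; linarith) (hmono hγ1) (hrp _) (by linarith)
  have hPI : PIle μ (P1 * x ^ e) := fun g hg => (hP n μ hn hs hS g hg).trans
    (mul_le_mul_of_nonneg_right (mul_le_mul_of_nonneg_right (le_max_left P0 1) (hrp _)) (dir_nonneg g))
  have hlvl := hlev n μ R Kc (P1 * x ^ e) hs hμ hKc1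
    (one_le_mul_of_one_le_of_one_le (le_max_right P0 1) (hone e he0.le)) hcore hPI
  refine (hent n μ R _ hμ (by positivity) hlvl f hf).trans_eq ?_
  have ee : γ + e = max (1 / 4 + 3 * e) (β - 7 * e) := by
    rw [hγ, hb, ← max_add_add_right]; congr 1 <;> ring
  rw [hKc, ← ee, ← hpp γ e]
  ring

theorem coreBound_quarter {q : ℕ} (hq : 4 ≤ q) (hP : PoincareBound q) :
    CoreBound (1 / 4 + 3 * (q : ℝ)⁻¹) := by
  set e := (q : ℝ)⁻¹ with he
  have hq' : (4 : ℝ) ≤ q := by exact_mod_cast hq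
  have he0 : 0 < e := inv_pos.2 (by linarith)
  have he4 : e ≤ 1 / 4 := by rw [he, one_div]; exact inv_anti₀ (by norm_num) hq'
  have h0 : CoreBound (1 / 3 + 1 / (3 * q)) := coreBound hq defectiveBound hP
  have e3 : (1 : ℝ) / (3 * q) = e / 3 := by rw [he]; field_simp
  have key : ∀ k : ℕ, CoreBound (max (1 / 4 + 3 * e) (1 / 3 + e / 3 - 7 * e * k)) := by
    intro k
    induction k with
    | zero => exact h0.mono (by rw [e3]; simp)
    | succ k ih =>
      have hk : 0 ≤ 7 * e * (k : ℝ) := by positivity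
      refine (coreBound_step hq hP (max_le (by linarith) (by linarith)) ih).mono ?_
      refine max_le (le_max_left _ _) ?_
      push_cast
      rcases le_total (1 / 4 + 3 * e) (1 / 3 + e / 3 - 7 * e * k) with h | h
      · rw [max_eq_right h]
        exact le_max_of_le_right (by linarith)
      · rw [max_eq_left h]
        exact le_max_of_le_left (by linarith)
  refine (key q).mono (max_le le_rfl ?_)
  have : e * q = 1 := inv_mul_cancel₀ (by linarith)
  linarith

end Vale.Agent.P245
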