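import Vale.Agent.P245.Quarter.Ref
import Vale.Agent.P245.Push.Herbst

/-!
The divergence of order three halves between the channel law and its Gaussian reference: the inner
average is a semiconcave perturbation of the standard Gaussian measure, and the outer function is
a convex function with quadratic bounds, so that its gradient grows linearly.
-/

noncomputable section

open MeasureTheory ProbabilityTheory Set Filter Topology Matrix
open scoped ENNReal

namespace Vale.Agent.P245

variable {n : ℕ} {μ : Measure (Space n)} {R : ℝ}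

/-- The Laplace transform of a weighted Gaussian measure. -/
def lap (W : Space n → ℝ) (v : Space n) : ℝ := ∫ g, W g * Real.exp (inner ℝ v g) ∂gam n

theorem tame_lap_integrand {W : Space n → ℝ} (hT : Tame W) (v : Space n) :
    Tame fun g => W g * Real.exp (inner ℝ v g) :=
  hT.mul (Tame.exp_lin (A := 0) (B := ‖v‖) fun g => by
    rw [zero_add]; exact (abs_real_inner_le_norm v g).trans_eq rfl)

theorem hasFDerivAt_lap {W : Space n → ℝ} (hW : Continuous W) (hT : Tame W) (v : Space n) :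
    HasFDerivAt (lap W)
      (∑ i, lap (fun g => g i * W g) v • (EuclideanSpace.proj i : Space n →L[ℝ] ℝ)) v := by
  set F' : Space n → Space n → (Space n →L[ℝ] ℝ) := fun u g =>
    (W g * Real.exp (inner ℝ u g)) • innerSL ℝ g
  have hb : Tame fun g : Space n => ‖g‖ * (|W g| * Real.exp ((‖v‖ + 1) * ‖g‖)) := by
    refine Tame.mul_norm (G := fun g : Space n => ‖g‖) ?_ fun g => (abs_norm g).le
    exact (Tame.of_le hT fun g => (abs_abs (W g)).le).mul
      (Tame.of_le_exp (A := 0) (B := ‖v‖ + 1) fun g => by rw [Real.abs_exp, zero_add])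
  have key := hasFDerivAt_integral_of_dominated_of_fderiv_le (μ := gam n) (x₀ := v)
    (F := fun u g => W g * Real.exp (inner ℝ u g)) (F' := F') (s := Metric.ball v 1)
    (bound := fun g => ‖g‖ * (|W g| * Real.exp ((‖v‖ + 1) * ‖g‖)))
    (Metric.ball_mem_nhds v one_pos)
    (Eventually.of_forall fun u => (by fun_prop : Continuous fun g =>
      W g * Real.exp (inner ℝ u g)).aestronglyMeasurable)
    ((tame_lap_integrand hT v).integrable (by fun_prop))
    ((by fun_prop : Continuous fun g => (W g * Real.exp (inner ℝ v g)) • innerSL ℝ g).aestronglyMeasurable)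
    (ae_of_all _ fun g u hu => ?_) (hb.integrable (by fun_prop))
    (ae_of_all _ fun g u _ => ?_)
  · refine key.congr_fderiv ?_
    have hi : ∀ i, Integrable (fun g => g i * W g * Real.exp (inner ℝ v g)) (gam n) := fun i =>
      (tame_lap_integrand (Tame.mul_norm hT fun g => abs_coord_le g i) v).integrable (by fun_prop)
    have e : (fun g => F' v g) = fun g => ∑ i, (g i * W g * Real.exp (inner ℝ v g)) •
        (EuclideanSpace.proj i : Space n →L[ℝ] ℝ) := by
      funext g
      refine ContinuousLinearMap.ext fun w => ?_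
      simp only [F', _root_.smul_apply, innerSL_apply_apply, _root_.sum_apply, smul_eq_mul,
        PiLp.inner_apply, RCLike.inner_apply, conj_trivial, PiLp.proj_apply, Finset.mul_sum]
      exact Finset.sum_congr rfl fun i _ => by ring
    rw [e, integral_finsetSum _ fun i _ => (hi i).smul_const _]
    simp only [integral_smul_const, lap]
  · rw [norm_smul, Real.norm_eq_abs, abs_mul, Real.abs_exp, innerSL_apply_norm]
    rw [mul_comm]
    refine mul_le_mul_of_nonneg_left (mul_le_mul_of_nonneg_left (Real.exp_le_exp.2 ?_)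
      (abs_nonneg _)) (norm_nonneg _)
    refine (real_inner_le_norm u g).trans (mul_le_mul_of_nonneg_right ?_ (norm_nonneg g))
    rw [Metric.mem_ball, dist_eq_norm] at hu
    have := norm_le_norm_add_norm_sub' u v
    linarith
  · have hd : HasFDerivAt (fun u : Space n => inner ℝ u g) (innerSL ℝ g) u := by
      have := (innerSL ℝ g).hasFDerivAt (x := u)
      simpa [real_inner_comm] using this
    exact (hd.exp.const_mul (W g)).congr_fderiv (by simp [F', smul_smul])

theorem contDiff_lap : ∀ (m : ℕ) {W : Space n → ℝ}, Continuous W → Tame W →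
    ContDiff ℝ m (lap W) := by
  intro m
  induction m with
  | zero =>
    intro W hW hT
    exact contDiff_zero.2 (continuous_iff_continuousAt.2 fun v => (hasFDerivAt_lap hW hT v).continuousAt)
  | succ k ih =>
    intro W hW hT
    rw [Nat.cast_add, Nat.cast_one, contDiff_succ_iff_hasFDerivAt]
    refine ⟨_, ?_, fun v => hasFDerivAt_lap hW hT v⟩
    exact ContDiff.sum fun i _ =>
      (ih ((by fun_prop : Continuous fun g : Space n => g i).mul hW)
        (Tame.mul_norm hT fun g => abs_coord_le g i)).smul contDiff_const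

/-- The square root of the likelihood ratio. -/
def wHalf (μ : Measure (Space n)) (t : ℝ) (g : Space n) : ℝ := Real.exp (1 / 2 * lr μ t g)

theorem continuous_wHalf (hμ : Car μ R) (t : ℝ) : Continuous (wHalf μ t) :=
  (continuous_const.mul (contDiff_lr hμ t).continuous).rexp

theorem tame_wHalf (hμ : Car μ R) (hS : Sub1 μ) {t : ℝ} (ht : 0 ≤ t) : Tame (wHalf μ t) :=
  tame_exp_lr hμ hS ht (by norm_num)

/-- The outer function. -/
def Phi (μ : Measure (Space n)) (t : ℝ) (y : Space n) : ℝ :=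
  Real.log (∫ g, wHalf μ t (g + √t • y) ∂gam n)

theorem wHalf_shift (μ : Measure (Space n)) (t : ℝ) (y : Space n) :
    ∫ g, wHalf μ t (g + √t • y) ∂gam n
      = Real.exp (-(‖√t • y‖ ^ 2 / 2)) * lap (wHalf μ t) (√t • y) := by
  rw [← gam_shift, lap, ← integral_const_mul]
  refine integral_congr_ae (ae_of_all _ fun g => ?_)
  dsimp only
  rw [sub_eq_add_neg, Real.exp_add]
  ring

theorem integrable_wHalf_shift (hμ : Car μ R) (hS : Sub1 μ) {t : ℝ} (ht : 0 ≤ t) (v : Space n) :
    Integrable (fun g => wHalf μ t (g + v)) (gam n) := by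
  obtain ⟨A, c, hA⟩ := tame_wHalf hμ hS ht
  have hA0 : 0 ≤ A := by have := (abs_nonneg _).trans (hA 0); simpa using this
  refine Tame.integrable ⟨A * Real.exp (|c| * ‖v‖), |c|, fun g => (hA _).trans ?_⟩
    ((continuous_wHalf hμ t).comp (by fun_prop))
  rw [mul_assoc, ← Real.exp_add]
  refine mul_le_mul_of_nonneg_left (Real.exp_le_exp.2 ?_) hA0
  have h1 := mul_le_mul (le_abs_self c) (norm_add_le g v) (norm_nonneg _) (abs_nonneg c)
  linarith [mul_add |c| ‖g‖ ‖v‖]

theorem wHalf_shift_pos (hμ : Car μ R) (hS : Sub1 μ) {t : ℝ} (ht : 0 ≤ t) (v : Space n) :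
    0 < ∫ g, wHalf μ t (g + v) ∂gam n :=
  integral_exp_pos (integrable_wHalf_shift hμ hS ht v)

theorem exp_Phi (hμ : Car μ R) (hS : Sub1 μ) {t : ℝ} (ht : 0 ≤ t) (y : Space n) :
    Real.exp (Phi μ t y) = ∫ g, wHalf μ t (g + √t • y) ∂gam n :=
  Real.exp_log (wHalf_shift_pos hμ hS ht _)

theorem contDiff_Phi (hμ : Car μ R) (hS : Sub1 μ) {t : ℝ} (ht : 0 ≤ t) :
    ContDiff ℝ 2 (Phi μ t) := by
  have hlap : ContDiff ℝ 2 (lap (wHalf μ t)) :=
    contDiff_lap 2 (continuous_wHalf hμ t) (tame_wHalf hμ hS ht)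
  have h : ContDiff ℝ 2 fun y => ∫ g, wHalf μ t (g + √t • y) ∂gam n := by
    rw [show (fun y => ∫ g, wHalf μ t (g + √t • y) ∂gam n)
      = fun y => Real.exp (-(‖√t • y‖ ^ 2 / 2)) * lap (wHalf μ t) (√t • y) from
      funext (wHalf_shift μ t)]
    have h1 : ContDiff ℝ 2 fun y : Space n => √t • y := contDiff_const_smul √t
    exact (((h1.norm_sq ℝ).div_const 2).neg.exp).mul (hlap.comp h1)
  exact h.log fun y => (wHalf_shift_pos hμ hS ht _).ne'

theorem exp_ker_eq {t : ℝ} (ht : 0 ≤ t) (g x : Space n) :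
    Real.exp (ker t (√t • g) x) = Real.exp (inner ℝ (√t • x) g - ‖√t • x‖ ^ 2 / 2) := by
  simp only [ker, real_inner_smul_left, norm_smul, Real.norm_eq_abs, mul_pow, sq_abs,
    Real.sq_sqrt ht, real_inner_comm g x]

/-- The normalisations of the two Gaussian integrals. -/
theorem norm_prod_le (hμ : Car μ R) (hS : Sub1 μ) {U : Mat n} {lam : Fin n → ℝ}
    (hE : Eig (covM μ) U lam) {t : ℝ} (ht : 0 < t) (ht4 : t ≤ 1 / 4) :
    (∏ i, √(1 + t * lam i))⁻¹ * Real.exp (lN2 μ t) ≤ Real.exp (t ^ 2 / 2 * covT μ + t ^ 4 * n) := by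
  have hl1 := fun i => hE.lam_le_one hS hμ i
  have htl : ∀ i, 0 ≤ t * lam i ∧ t * lam i ≤ 1 / 4 := fun i =>
    ⟨mul_nonneg ht.le (hE.nonneg i),
      (mul_le_mul ht4 (hl1 i) (hE.nonneg i) (by norm_num)).trans (by norm_num)⟩
  have hA2 : Real.exp (lN2 μ t) = (∏ i, √(1 - t * lam i))⁻¹ := by
    have h' := gaussQuad n U (fun i => t * lam i) hE.left hE.right (fun i => by linarith [(htl i).2])
      fun _ => 1
    simp only [one_mul, integral_const, probReal_univ, smul_eq_mul, mul_one] at h'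
    have e : ∫ g, Real.exp (t / 2 * qA μ g) ∂gam n = (∏ i, √(1 - t * lam i))⁻¹ := by
      rw [← h']
      refine integral_congr_ae (ae_of_all _ fun g => ?_)
      simp only [← sum_eco_mul, qA_eq_eco hE, Finset.mul_sum]
      congr 1
      exact Finset.sum_congr rfl fun i _ => by ring
    rw [lN2, e, Real.exp_log (inv_pos.2 (Finset.prod_pos fun i _ =>
      Real.sqrt_pos.2 (by linarith [(htl i).2])))]
  rw [hA2]
  have e : (∏ i, √(1 + t * lam i))⁻¹ * (∏ i, √(1 - t * lam i))⁻¹
      = ∏ i, (√(1 - (t * lam i) ^ 2))⁻¹ := by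
    rw [← mul_inv, ← Finset.prod_mul_distrib, ← Finset.prod_inv_distrib]
    refine Finset.prod_congr rfl fun i _ => ?_
    rw [← Real.sqrt_mul (by linarith [(htl i).1])]
    congr 2
    ring
  rw [e]
  refine (Finset.prod_le_prod (fun i _ => inv_nonneg.2 (Real.sqrt_nonneg _))
    fun i _ => inv_sqrt_one_sub_le (by nlinarith [(htl i).1, (htl i).2])).trans ?_
  rw [← Real.exp_sum, covT_eq hE hS hμ]
  refine Real.exp_le_exp.2 ?_
  rw [Finset.mul_sum, show t ^ 4 * (n : ℝ) = ∑ _i : Fin n, t ^ 4 by simp [mul_comm],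
    ← Finset.sum_add_distrib]
  refine Finset.sum_le_sum fun i _ => ?_
  have h4 : lam i ^ 4 ≤ 1 := pow_le_one₀ (hE.nonneg i) (hl1 i)
  nlinarith [mul_le_mul_of_nonneg_left h4 (pow_nonneg ht.le 4)]

theorem exp_half_le (a b : ℝ) :
    Real.exp (1 / 2 * a) ≤ Real.exp (b / 2) * (1 / 2 * Real.exp (a - b) + 1 / 2) := by
  have h := convexOn_exp.2 (mem_univ (a - b)) (mem_univ 0) (show (0 : ℝ) ≤ 1 / 2 by norm_num)
    (show (0 : ℝ) ≤ 1 / 2 by norm_num) (by norm_num)
  simp only [smul_eq_mul, mul_zero, add_zero, Real.exp_zero, mul_one] at h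
  calc Real.exp (1 / 2 * a) = Real.exp (b / 2) * Real.exp (1 / 2 * (a - b)) := by
        rw [← Real.exp_add]; congr 1; ring
    _ ≤ _ := mul_le_mul_of_nonneg_left h (Real.exp_pos _).le

/-- The upper bound of the outer function. -/
theorem Phi_le (hμ : Car μ R) (hS : Sub1 μ) {t : ℝ} (ht : 0 < t) (ht4 : t ≤ 1 / 4) (y : Space n) :
    Phi μ t y ≤ t ^ 2 * (n + ‖y‖ ^ 2) / 2 := by
  have := hμ.prob
  obtain ⟨U, lam, hE⟩ := exists_eig (posSemidef_covM hμ)
  have hN := Real.exp_pos (lN2 μ t)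
  set k : Space n → Space n → ℝ := fun g x => Real.exp (ker t (√t • g) x) with hk
  set N1 := (∏ i, √(1 + t * lam i))⁻¹
  have hN1 : 0 ≤ N1 := inv_nonneg.2 (Finset.prod_nonneg fun i _ => Real.sqrt_nonneg _)
  set F : Space n → Space n → ℝ := fun g x => k g x * k g y * Real.exp (-(t / 2) * qA μ g) with hF
  have hFc : Continuous (Function.uncurry F) := by
    simp only [hF, hk, Function.uncurry_def, ker]; fun_prop
  have hkb : ∀ g x : Space n, ker t (√t • g) x ≤ √t * ‖x‖ * ‖g‖ := fun g x => by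
    rw [ker, real_inner_smul_left]
    have h1 := mul_le_mul_of_nonneg_left (real_inner_le_norm g x) (Real.sqrt_nonneg t)
    have h2 : 0 ≤ t * ‖x‖ ^ 2 / 2 := by positivity
    linarith
  have hFi : Integrable (Function.uncurry F) ((gam n).prod μ) := by
    refine integrable_gam_prod hμ hFc (A := 1) (c := √t * R + √t * ‖y‖) fun g x hx => ?_
    simp only [hF, hk, one_mul, ← Real.exp_add, Real.abs_exp]
    refine Real.exp_le_exp.2 ?_
    have h1 := hkb g x
    have h2 := hkb g y
    have h3 : √t * ‖x‖ * ‖g‖ ≤ √t * R * ‖g‖ := by gcongr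
    have h4 := mul_nonneg (show 0 ≤ t / 2 by linarith) (qA_nonneg hμ g)
    linarith
  set G : Space n → ℝ := fun x => t * inner ℝ (repL μ t x) y - aCor μ t x - aCor μ t y with hG
  have hB : ∫ g, k g y * Real.exp (lr μ t g) ∂gam n
      ≤ Real.exp (t ^ 2 * (n + ‖y‖ ^ 2)) := by
    have e : ∀ g, k g y * Real.exp (lr μ t g)
        = Real.exp (lN2 μ t) * ∫ x, F g x ∂μ := fun g => by
      simp only [hF, integral_mul_const]
      rw [show ∫ x, k g x ∂μ = Zf μ (t, √t • g) by simp [hk, Zf, Nf]]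
      rw [lr, show Real.log (Zf μ (t, √t • g)) - t / 2 * qA μ g + lN2 μ t
        = Real.log (Zf μ (t, √t • g)) + (-(t / 2) * qA μ g + lN2 μ t) by ring, Real.exp_add,
        Real.exp_log (Zf_pos hμ _), Real.exp_add]
      ring
    simp only [e, integral_const_mul]
    rw [integral_integral_swap hFi]
    have h1 : ∫ x, ∫ g, F g x ∂gam n ∂μ ≤ ∫ x, N1 * Real.exp (G x) ∂μ := by
      refine integral_mono_of_nonneg (ae_of_all _ fun x => integral_nonneg fun g => by
        simp only [hF, hk]; positivity) ((hμ.int_cont (by simp only [hG]; fun_prop)).const_mul _)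
        (ae_of_all _ fun x => replica_gauss gaussQuad hE ht.le x y)
    have h2 : ∫ x, Real.exp (G x) ∂μ ≤ Real.exp (t ^ 2 * ‖y‖ ^ 2) := by
      have e2 : ∀ x, Real.exp (G x)
          = Real.exp (-aCor μ t y) * Real.exp (t * inner ℝ (repL μ t x) y - aCor μ t x) := fun x => by
        rw [← Real.exp_add]; congr 1; simp only [hG]; ring
      simp only [e2, integral_const_mul]
      have hpos : 0 < ∫ x, Real.exp (t * inner ℝ (repL μ t x) y - aCor μ t x) ∂μ :=
        integral_exp_pos (hμ.int_cont (by fun_prop))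
      have h3 := (repF_bounds hμ hS ht.le (show t ≤ 1 / 2 by linarith) y).2
      rw [repF, Real.log_le_iff_le_exp hpos] at h3
      refine (mul_le_mul (Real.exp_le_one_iff.2 ?_) h3 hpos.le zero_le_one).trans_eq (one_mul _)
      linarith [aCor_nonneg hS hμ (show t ≤ 1 / 2 by linarith) y]
    rw [integral_const_mul] at h1
    refine (mul_le_mul_of_nonneg_left (h1.trans (mul_le_mul_of_nonneg_left h2 hN1)) hN.le).trans ?_
    rw [← mul_assoc, mul_comm (Real.exp (lN2 μ t))]
    refine (mul_le_mul_of_nonneg_right (norm_prod_le hμ hS hE ht ht4) (Real.exp_pos _).le).trans ?_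
    rw [← Real.exp_add]
    refine Real.exp_le_exp.2 ?_
    have hT := (covT_le hS hμ).2
    have h5 : t ^ 4 * (n : ℝ) ≤ t ^ 2 / 2 * n := by
      refine mul_le_mul_of_nonneg_right ?_ (Nat.cast_nonneg n)
      have : t ^ 2 ≤ 1 / 2 := by nlinarith
      calc t ^ 4 = t ^ 2 * t ^ 2 := by ring
        _ ≤ t ^ 2 * (1 / 2) := mul_le_mul_of_nonneg_left this (sq_nonneg t)
        _ = _ := by ring
    nlinarith [mul_le_mul_of_nonneg_left hT (show 0 ≤ t ^ 2 / 2 by positivity)]
  set b := t ^ 2 * (n + ‖y‖ ^ 2)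
  rw [Phi, Real.log_le_iff_le_exp (wHalf_shift_pos hμ hS ht.le _), ← gam_shift]
  have hke : ∀ g, wHalf μ t g * Real.exp (inner ℝ (√t • y) g - ‖√t • y‖ ^ 2 / 2)
      = k g y * wHalf μ t g := fun g => by rw [hk]; simp only [exp_ker_eq ht.le]; ring
  simp only [hke]
  have hk1 : ∫ g, k g y ∂gam n = 1 := by
    have h := gam_shift (fun _ => (1 : ℝ)) (√t • y)
    simpa [hk, exp_ker_eq ht.le] using h
  have hkT : Tame fun g => k g y := Tame.of_le_exp (A := 0) (B := √t * ‖y‖) fun g => by
    simp only [hk, Real.abs_exp, zero_add]; exact Real.exp_le_exp.2 (hkb g y)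
  have hkc : Continuous fun g => k g y := by simp only [hk, ker]; fun_prop
  have hlc := (contDiff_lr hμ t).continuous
  have hel : Tame fun g => Real.exp (lr μ t g) := by
    simpa using tame_exp_lr hμ hS ht.le zero_le_one
  have i1 : Integrable (fun g => k g y * Real.exp (lr μ t g)) (gam n) :=
    (hkT.mul hel).integrable (hkc.mul hlc.rexp)
  have i2 : Integrable (fun g => k g y) (gam n) := hkT.integrable hkc
  refine (integral_mono ((hkT.mul (tame_wHalf hμ hS ht.le)).integrable
    (hkc.mul (continuous_wHalf hμ t)))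
    (g := fun g => Real.exp (b / 2) * (1 / 2 * Real.exp (-b) * (k g y * Real.exp (lr μ t g))
      + 1 / 2 * k g y)) (((i1.const_mul _).add (i2.const_mul _)).const_mul _) fun g => ?_).trans ?_
  · have h := mul_le_mul_of_nonneg_left (exp_half_le (lr μ t g) b) (Real.exp_pos (ker t (√t • g) y)).le
    rw [Real.exp_sub] at h
    simp only [hk, wHalf]
    refine h.trans_eq ?_
    rw [Real.exp_neg]
    ring
  · rw [integral_const_mul, integral_add (i1.const_mul _) (i2.const_mul _), integral_const_mul,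
      integral_const_mul, hk1]
    refine mul_le_of_le_one_right (Real.exp_pos _).le ?_
    have h := mul_le_mul_of_nonneg_left hB (show 0 ≤ 1 / 2 * Real.exp (-b) by positivity)
    rw [mul_assoc (1 / 2 : ℝ) (Real.exp (-b)) (Real.exp b), ← Real.exp_add, neg_add_cancel,
      Real.exp_zero] at h
    linarith

theorem integral_Zf_qA (hμ : Car μ R) (hS : Sub1 μ) {t : ℝ} (ht : 0 ≤ t) :
    Integrable (fun g => qA μ g * Zf μ (t, √t • g)) (gam n) ∧
    ∫ g, qA μ g * Zf μ (t, √t • g) ∂gam n = (∫ g, qA μ g ∂gam n) + t * covT μ := by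
  have := hμ.prob
  have hc : Continuous (qA μ) := continuous_qA μ
  have hT : Tame (qA μ) := Tame.of_le Tame.norm_sq fun g => by
    rw [abs_of_nonneg (qA_nonneg hμ g), abs_of_nonneg (sq_nonneg _)]
    exact qA_le_norm_sq hμ hS g
  refine ⟨(hT.mul (tame_Zf hμ t)).integrable (hc.mul ((continuous_Zf hμ).comp (by fun_prop))), ?_⟩
  rw [show (fun g => qA μ g * Zf μ (t, √t • g))
      = fun g => qA μ g * Nf μ (fun _ => 1) (t, √t • g) from rfl,
    shift_identity hμ ht (φ := fun _ => (1 : ℝ)) continuous_const hc hT]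
  simp only [one_mul, qA_add]
  have hi := hT.integrable hc
  have hlin : ∀ x : Space n, Integrable (fun g : Space n => 2 * inner ℝ (covL μ g) (√t • x)) (gam n) ∧
      ∫ g, 2 * inner ℝ (covL μ g) (√t • x) ∂gam n = 0 := fun x => by
    have e : ∀ g : Space n, 2 * inner ℝ (covL μ g) (√t • x)
        = 2 * inner ℝ (covL μ (√t • x)) g := fun g => by rw [covL_symm μ (√t • x) g]
    simp only [e]
    refine ⟨((Tame.of_lin (A := 0) (B := ‖covL μ (√t • x)‖) fun g => by
      rw [zero_add]; exact abs_real_inner_le_norm _ g).integrable (by fun_prop)).const_mul 2, ?_⟩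
    rw [integral_const_mul, (gam_inner_sq _).2, mul_zero]
  have e2 : ∀ x : Space n, ∫ g, (qA μ g + 2 * inner ℝ (covL μ g) (√t • x) + qA μ (√t • x)) ∂gam n
      = (∫ g, qA μ g ∂gam n) + t * qA μ x := fun x => by
    rw [integral_add (f := fun g => qA μ g + 2 * inner ℝ (covL μ g) (√t • x)) (hi.add (hlin x).1)
      (integrable_const _), integral_add hi (hlin x).1, (hlin x).2, integral_const, qA_smul,
      Real.sq_sqrt ht]
    simp
  simp only [e2]
  rw [integral_add (integrable_const _) ((hμ.int_cont hc).const_mul t), integral_const,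
    integral_const_mul]
  simp [covT]

/-- The lower bound of the outer function at the origin. -/
theorem Phi_zero_ge {C : ℝ} (hμ : Car μ R) (hS : Sub1 μ) {t : ℝ} (ht : 0 < t) (ht4 : t ≤ 1 / 4)
    (hC : 0 ≤ C) (hren : RenyiLe μ t (C * t ^ 2 * n)) :
    -((C + 1) * t ^ 2 * n) ≤ Phi μ t 0 := by
  set Z : Space n → ℝ := fun g => Zf μ (t, √t • g) with hZ
  have hZc : Continuous Z := (continuous_Zf hμ).comp (by fun_prop)
  have hN := Real.exp_pos (lN2 μ t)
  have hZ0 : ∀ g, 0 < Z g := fun g => Zf_pos hμ _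
  have hlc := (contDiff_lr hμ t).continuous
  have hqc : Continuous (qA μ) := continuous_qA μ
  obtain ⟨hiq, hqv⟩ := integral_Zf_qA hμ hS ht.le
  set u : Space n → ℝ := fun g => -(t / 3) * qA μ g + 2 / 3 * lN2 μ t with hu
  have hiZ : Integrable Z (gam n) := (tame_Zf hμ t).integrable hZc
  have hT := (covT_le hS hμ).2
  set m := -(t / 3) * ((∫ g, qA μ g ∂gam n) + t * covT μ) + 2 / 3 * lN2 μ t with hm
  have hΓ : t / 2 * (∫ g, qA μ g ∂gam n) ≤ lN2 μ t := by
    have hqT : Tame (qA μ) := Tame.of_le Tame.norm_sq fun g => by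
      rw [abs_of_nonneg (qA_nonneg hμ g), abs_of_nonneg (sq_nonneg _)]
      exact qA_le_norm_sq hμ hS g
    have hexp : Integrable (fun g => Real.exp (t / 2 * qA μ g)) (gam n) := by
      refine (gam_exp_sq (n := n) (u := 1 / 4) (by norm_num)).1.mono' (by fun_prop)
        (ae_of_all _ fun g => ?_)
      rw [Real.norm_eq_abs, Real.abs_exp]
      refine Real.exp_le_exp.2 (mul_le_mul (by linarith) (qA_le_norm_sq hμ hS g) (qA_nonneg hμ g)
        (by norm_num))
    rw [lN2, Real.le_log_iff_exp_le (integral_exp_pos hexp), ← integral_const_mul]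
    exact convexOn_exp.map_integral_le Real.continuous_exp.continuousOn isClosed_univ
      (ae_of_all _ fun _ => mem_univ _) ((hqT.integrable hqc).const_mul _) hexp
  have hm0 : -(t ^ 2 / 3 * n) ≤ m := by
    rw [hm]
    linarith [mul_le_mul_of_nonneg_left hT (show 0 ≤ t ^ 2 / 3 by positivity)]
  set V : Space n → ℝ := fun g => Z g * Real.exp (lr μ t g) with hV
  have hVT : Tame V := (tame_Zf hμ t).mul (by simpa using tame_exp_lr hμ hS ht.le zero_le_one)
  have hVi : Integrable V (gam n) := hVT.integrable (hZc.mul hlc.rexp)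
  have hVle : ∫ g, V g ∂gam n ≤ Real.exp (C * t ^ 2 * n) := by
    have hexp : Real.exp (lN2 μ t) = ∫ g, Real.exp (t / 2 * qA μ g) ∂gam n := by
      rw [lN2, Real.exp_log]
      by_contra h
      have h2 : ∫ g, Real.exp (t / 2 * qA μ g) ∂gam n = 0 :=
        le_antisymm (not_lt.1 h) (integral_nonneg fun g => (Real.exp_pos _).le)
      obtain ⟨T, _, hT'⟩ := exists_refMap hμ hS ht.le ht4
      have := hT' fun _ => 1
      simp [h2] at this
      exact hN.ne' this.symm
    refine le_trans (le_of_eq ?_) hren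
    rw [← hexp, ← integral_mul_const]
    refine integral_congr_ae (ae_of_all _ fun g => ?_)
    simp only [hV, lr]
    rw [show Real.log (Zf μ (t, √t • g)) - t / 2 * qA μ g + lN2 μ t
        = Real.log (Zf μ (t, √t • g)) + (-(t / 2) * qA μ g + lN2 μ t) by ring, Real.exp_add,
      Real.exp_log (Zf_pos hμ _), Real.exp_add]
    ring
  set a := Phi μ t 0
  set b := C * t ^ 2 * (n : ℝ)
  have hw := exp_Phi hμ hS ht.le (0 : Space n)
  simp only [smul_zero, add_zero] at hw
  have hwi : Integrable (wHalf μ t) (gam n) :=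
    (tame_wHalf hμ hS ht.le).integrable (continuous_wHalf hμ t)
  have hpt : ∀ g, Real.exp m * (Z g * (1 - m) + Z g * u g)
      ≤ Real.exp (2 / 3 * a + 1 / 3 * b) * (2 / 3 * Real.exp (-a) * wHalf μ t g
        + 1 / 3 * Real.exp (-b) * V g) := fun g => by
    refine le_trans (b := Z g * Real.exp (u g)) ?_ ?_
    · have h := mul_le_mul_of_nonneg_left (Real.add_one_le_exp (u g - m))
        (mul_nonneg (hZ0 g).le (Real.exp_pos m).le)
      rw [mul_assoc (Z g) (Real.exp m) (Real.exp (u g - m)), ← Real.exp_add,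
        add_sub_cancel] at h
      linarith
    · have h := convexOn_exp.2 (mem_univ (1 / 2 * lr μ t g - a))
        (mem_univ (Real.log (Z g) + lr μ t g - b)) (show (0 : ℝ) ≤ 2 / 3 by norm_num)
        (show (0 : ℝ) ≤ 1 / 3 by norm_num) (by norm_num)
      simp only [smul_eq_mul] at h
      have e : Z g * Real.exp (u g) = Real.exp (2 / 3 * a + 1 / 3 * b)
          * Real.exp (2 / 3 * (1 / 2 * lr μ t g - a) + 1 / 3 * (Real.log (Z g) + lr μ t g - b)) := by
        rw [← Real.exp_add]
        conv_lhs => rw [← Real.exp_log (hZ0 g), ← Real.exp_add]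
        congr 1
        simp only [hu, hZ, lr]
        ring
      rw [e]
      refine (mul_le_mul_of_nonneg_left h (Real.exp_pos _).le).trans_eq ?_
      simp only [Real.exp_sub, Real.exp_add, Real.exp_neg, Real.exp_log (hZ0 g), wHalf, hV]
      ring
  have hiu : Integrable (fun g => Z g * u g) (gam n) := by
    refine ((hiq.const_mul (-(t / 3))).add (hiZ.const_mul (2 / 3 * lN2 μ t))).congr
      (ae_of_all _ fun g => ?_)
    simp only [Pi.add_apply, hu, hZ]
    ring
  have key := integral_mono (((hiZ.mul_const _).add hiu).const_mul _)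
    (((hwi.const_mul _).add (hVi.const_mul _)).const_mul _) hpt
  have hum : ∫ g, Z g * u g ∂gam n = m := by
    have e : ∀ g, Z g * u g
        = -(t / 3) * (qA μ g * Zf μ (t, √t • g)) + 2 / 3 * lN2 μ t * Z g := fun g => by
      simp only [hu, hZ]; ring
    simp only [e]
    rw [integral_add (hiq.const_mul _) (hiZ.const_mul _), integral_const_mul, integral_const_mul,
      hqv, hZ, integral_Zf_one hμ ht.le, hm]
    ring
  simp only [Pi.add_apply] at key
  rw [integral_const_mul, integral_add (hiZ.mul_const _) hiu, integral_mul_const, hum,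
    integral_const_mul, integral_add (hwi.const_mul _) (hVi.const_mul _), integral_const_mul,
    integral_const_mul, ← hw] at key
  rw [show ∫ g, Z g ∂gam n = 1 from integral_Zf_one hμ ht.le, one_mul, sub_add_cancel, mul_one] at key
  have h2 : 2 / 3 * Real.exp (-a) * Real.exp a + 1 / 3 * Real.exp (-b) * ∫ g, V g ∂gam n ≤ 1 := by
    have h3 := mul_le_mul_of_nonneg_left hVle (show 0 ≤ 1 / 3 * Real.exp (-b) by positivity)
    have ea : Real.exp (-a) * Real.exp a = 1 := by rw [← Real.exp_add]; simp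
    have eb : Real.exp (-b) * Real.exp b = 1 := by rw [← Real.exp_add]; simp
    nlinarith
  have h4 := Real.exp_le_exp.1 (key.trans (mul_le_of_le_one_right (Real.exp_pos _).le h2))
  have : 0 ≤ t ^ 2 * (n : ℝ) := by positivity
  have : 0 ≤ b := by positivity
  linarith [show (C + 1) * t ^ 2 * (n : ℝ) = b + t ^ 2 * n by ring]

/-- The convexified outer function. -/
def convG (μ : Measure (Space n)) (t : ℝ) (y : Space n) : ℝ := Phi μ t y + t ^ 2 / 4 * qA μ y

theorem convG_combo (hs : IsSLC 0 μ) (hμ : Car μ R) (hS : Sub1 μ) {t : ℝ} (ht : 0 < t)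
    (y0 y1 : Space n) {s : ℝ} (h0 : 0 ≤ s) (h1 : s ≤ 1) :
    convG μ t ((1 - s) • y0 + s • y1) ≤ (1 - s) * convG μ t y0 + s * convG μ t y1 := by
  set z := (1 - s) • y0 + s • y1 with hz
  have hs1 : 0 ≤ 1 - s := by linarith
  set e : Space n → Space n → ℝ := fun y g => 1 / 2 * lr μ t (g + √t • y) + t ^ 2 / 4 * qA μ y
    with he
  have hint : ∀ y, Integrable (fun g => Real.exp (e y g)) (gam n) ∧
      Real.exp (convG μ t y) = ∫ g, Real.exp (e y g) ∂gam n := fun y => by
    have ee : ∀ g, Real.exp (e y g)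
        = Real.exp (t ^ 2 / 4 * qA μ y) * wHalf μ t (g + √t • y) := fun g => by
      rw [wHalf, ← Real.exp_add]; congr 1; simp only [he]; ring
    simp only [ee, integral_const_mul, ← exp_Phi hμ hS ht.le]
    refine ⟨(integrable_wHalf_shift hμ hS ht.le _).const_mul _, ?_⟩
    rw [convG, Real.exp_add, mul_comm]
  have hpt : ∀ g, e z g ≤ (1 - s) * e y0 g + s * e y1 g := by
    intro g
    set g0 := g + √t • y0
    set g1 := g + √t • y1
    set gz := g + √t • z with hgz
    have d0 : g0 = gz + (√t * s) • (y0 - y1) := by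
      simp only [g0, hgz, hz]; module
    have d1 : g1 = gz + (-(√t * (1 - s))) • (y0 - y1) := by
      simp only [g1, hgz, hz]; module
    have a0 := (lZ_tangent hs hμ ht gz ((√t * s) • (y0 - y1))).1
    have a1 := (lZ_tangent hs hμ ht gz ((-(√t * (1 - s))) • (y0 - y1))).1
    rw [← d0, real_inner_smul_right] at a0
    rw [← d1, real_inner_smul_right] at a1
    have hl : Real.log (Zf μ (t, √t • gz)) ≤ (1 - s) * Real.log (Zf μ (t, √t • g0))
        + s * Real.log (Zf μ (t, √t • g1)) := by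
      have b0 := mul_le_mul_of_nonneg_left a0 hs1
      have b1 := mul_le_mul_of_nonneg_left a1 h0
      linarith
    have q0 : qA μ g0 = qA μ gz + 2 * (√t * s) * inner ℝ (covL μ gz) (y0 - y1)
        + (√t * s) ^ 2 * qA μ (y0 - y1) := by
      rw [d0, qA_add, qA_smul, real_inner_smul_right]; ring
    have q1 : qA μ g1 = qA μ gz - 2 * (√t * (1 - s)) * inner ℝ (covL μ gz) (y0 - y1)
        + (√t * (1 - s)) ^ 2 * qA μ (y0 - y1) := by
      rw [d1, qA_add, qA_smul, real_inner_smul_right]; ring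
    have p0 : qA μ y0 = qA μ z + 2 * s * inner ℝ (covL μ z) (y0 - y1) + s ^ 2 * qA μ (y0 - y1) := by
      rw [show y0 = z + s • (y0 - y1) by rw [hz]; module, qA_add, qA_smul, real_inner_smul_right,
        show z + s • (y0 - y1) - y1 = y0 - y1 by rw [hz]; module]
      ring
    have p1 : qA μ y1 = qA μ z - 2 * (1 - s) * inner ℝ (covL μ z) (y0 - y1)
        + (1 - s) ^ 2 * qA μ (y0 - y1) := by
      rw [show y1 = z + (-(1 - s)) • (y0 - y1) by rw [hz]; module, qA_add, qA_smul,
        real_inner_smul_right,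
        show y0 - (z + (-(1 - s)) • (y0 - y1)) = y0 - y1 by rw [hz]; module]
      ring
    simp only [he, lr, g0, g1] at hl q0 q1 ⊢
    rw [← hgz, q0, q1, p0, p1, mul_pow, mul_pow, Real.sq_sqrt ht.le]
    linarith
  have key := integral_mono (hint z).1 (g := fun g => Real.exp ((1 - s) * convG μ t y0 + s * convG μ t y1)
      * ((1 - s) * Real.exp (-convG μ t y0) * Real.exp (e y0 g)
        + s * Real.exp (-convG μ t y1) * Real.exp (e y1 g)))
    ((((hint y0).1.const_mul _).add ((hint y1).1.const_mul _)).const_mul _) fun g => by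
      have h := convexOn_exp.2 (mem_univ (e y0 g - convG μ t y0)) (mem_univ (e y1 g - convG μ t y1))
        hs1 h0 (by ring)
      simp only [smul_eq_mul] at h
      refine (Real.exp_le_exp.2 (hpt g)).trans ?_
      calc Real.exp ((1 - s) * e y0 g + s * e y1 g)
          = Real.exp ((1 - s) * convG μ t y0 + s * convG μ t y1)
            * Real.exp ((1 - s) * (e y0 g - convG μ t y0) + s * (e y1 g - convG μ t y1)) := by
            rw [← Real.exp_add]; congr 1; ring
        _ ≤ _ := by
            refine (mul_le_mul_of_nonneg_left h (Real.exp_pos _).le).trans_eq ?_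
            rw [Real.exp_sub, Real.exp_sub, Real.exp_neg, Real.exp_neg]
            ring
  rw [← (hint z).2, integral_const_mul,
    integral_add ((hint y0).1.const_mul _) ((hint y1).1.const_mul _), integral_const_mul,
    integral_const_mul, ← (hint y0).2, ← (hint y1).2] at key
  refine Real.exp_le_exp.1 (key.trans_eq ?_)
  rw [mul_assoc (1 - s), mul_assoc s, ← Real.exp_add, ← Real.exp_add, neg_add_cancel,
    neg_add_cancel, Real.exp_zero]
  ring

/-- The gradient of the outer function grows linearly. -/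
theorem norm_fderiv_Phi_le {C : ℝ} (hs : IsSLC 0 μ) (hμ : Car μ R) (hS : Sub1 μ) {t : ℝ}
    (ht : 0 < t) (ht4 : t ≤ 1 / 4) (hC : 0 ≤ C) (hren : RenyiLe μ t (C * t ^ 2 * n)) (y : Space n) :
    ‖fderiv ℝ (Phi μ t) y‖ ^ 2 ≤ (64 * C + 128) * t ^ 4 * (n + ‖y‖ ^ 2) := by
  have hG : ContDiff ℝ 2 (convG μ t) :=
    (contDiff_Phi hμ hS ht.le).add (contDiff_const.mul (contDiff_qA μ))
  have hup : ∀ z, convG μ t z ≤ t ^ 2 * (n + ‖z‖ ^ 2) := fun z => by
    have h1 := Phi_le hμ hS ht ht4 z
    have h2 := mul_le_mul_of_nonneg_left (qA_le_norm_sq hμ hS z) (show 0 ≤ t ^ 2 / 4 by positivity)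
    have : 0 ≤ t ^ 2 * (n : ℝ) := by positivity
    have : 0 ≤ t ^ 2 * ‖z‖ ^ 2 := by positivity
    simp only [convG]; linarith
  have h00 : -((C + 1) * t ^ 2 * n) ≤ convG μ t 0 := by
    have := Phi_zero_ge hμ hS ht ht4 hC hren
    have : 0 ≤ t ^ 2 / 4 * qA μ (0 : Space n) := mul_nonneg (by positivity) (qA_nonneg hμ _)
    simp only [convG]; linarith
  have hlow : ∀ z, -((2 * C + 3) * t ^ 2 * n + t ^ 2 * ‖z‖ ^ 2) ≤ convG μ t z := fun z => by
    have h := convG_combo hs hμ hS ht z (-z) (s := 1 / 2) (by norm_num) (by norm_num)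
    rw [show (1 - (1 / 2 : ℝ)) • z + (1 / 2 : ℝ) • -z = 0 by module] at h
    have h2 := hup (-z)
    rw [norm_neg] at h2
    linarith
  set L := fderiv ℝ (convG μ t) y with hL
  set X := (2 * C + 4) * t ^ 2 * n + 3 * t ^ 2 * ‖y‖ ^ 2 with hX
  have hX0 : 0 ≤ X := by positivity
  have hsub : ∀ θ, L θ ≤ X + 2 * t ^ 2 * ‖θ‖ ^ 2 := by
    intro θ
    have hl : HasDerivAt (fun s : ℝ => convG μ t (y + s • θ)) (L θ) 0 := by
      have h1 : HasDerivAt (fun s : ℝ => y + s • θ) θ 0 := by
        simpa using ((hasDerivAt_id (0 : ℝ)).smul_const θ).const_add y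
      exact (hG.differentiable two_ne_zero y).hasFDerivAt.comp_hasDerivAt_of_eq (0 : ℝ) h1 (by simp)
    have hle : L θ ≤ convG μ t (y + θ) - convG μ t y := by
      refine le_of_tendsto hl.tendsto_slope_zero_right ?_
      filter_upwards [Ioc_mem_nhdsGT zero_lt_one] with s hs'
      have h := convG_combo hs hμ hS ht y (y + θ) hs'.1.le hs'.2
      rw [show (1 - s) • y + s • (y + θ) = y + s • θ by module] at h
      simp only [zero_add, zero_smul, add_zero, smul_eq_mul]
      rw [inv_mul_le_iff₀ hs'.1]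
      linarith
    have h1 := hup (y + θ)
    have h2 := hlow y
    have h3 : ‖y + θ‖ ^ 2 ≤ 2 * ‖y‖ ^ 2 + 2 * ‖θ‖ ^ 2 := by
      nlinarith [norm_add_le y θ, norm_nonneg (y + θ), sq_nonneg (‖y‖ - ‖θ‖)]
    have := mul_le_mul_of_nonneg_left h3 (sq_nonneg t)
    linarith
  have hLn : ‖L‖ ≤ √(8 * t ^ 2 * X) := by
    refine ContinuousLinearMap.opNorm_le_bound _ (Real.sqrt_nonneg _) fun w => ?_
    rcases eq_or_ne w 0 with hw | hw
    · simp [hw]
    have hw0 : 0 < ‖w‖ ^ 2 := pow_pos (norm_pos_iff.2 hw) 2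
    refine (pow_le_pow_iff_left₀ (norm_nonneg _) (by positivity) two_ne_zero).1 ?_
    rw [Real.norm_eq_abs, sq_abs, mul_pow, Real.sq_sqrt (by positivity)]
    set c := L w / (4 * t ^ 2 * ‖w‖ ^ 2) with hc
    have h := hsub (c • w)
    rw [map_smul, smul_eq_mul, norm_smul, Real.norm_eq_abs, mul_pow, sq_abs] at h
    have e : c * L w - 2 * t ^ 2 * (c ^ 2 * ‖w‖ ^ 2) = L w ^ 2 / (8 * t ^ 2 * ‖w‖ ^ 2) := by
      rw [hc]; field_simp; ring
    have h' : L w ^ 2 / (8 * t ^ 2 * ‖w‖ ^ 2) ≤ X := by linarith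
    rw [div_le_iff₀ (by positivity)] at h'
    linarith
  have hP : HasFDerivAt (Phi μ t) (L - (t ^ 2 / 4) • innerSL ℝ ((2 : ℝ) • covL μ y)) y := by
    have h := (hG.differentiable two_ne_zero y).hasFDerivAt.sub
      ((hasFDerivAt_qA μ y).const_mul (t ^ 2 / 4))
    refine h.congr_of_eventuallyEq (Eventually.of_forall fun z => ?_)
    simp [convG]
  rw [hP.fderiv]
  have hb : ‖(t ^ 2 / 4) • innerSL ℝ ((2 : ℝ) • covL μ y)‖ ≤ t ^ 2 / 2 * ‖y‖ := by
    rw [norm_smul, innerSL_apply_norm, norm_smul, Real.norm_eq_abs, abs_of_nonneg (by positivity),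
      Real.norm_eq_abs, abs_two]
    linarith [mul_le_mul_of_nonneg_left (norm_covL_le hS hμ y) (show 0 ≤ t ^ 2 / 2 by positivity)]
  have h1 := pow_le_pow_left₀ (norm_nonneg _) ((norm_sub_le _ _).trans (add_le_add hLn hb)) 2
  refine h1.trans ?_
  have h2 := Real.sq_sqrt (show 0 ≤ 8 * t ^ 2 * X by positivity)
  have h3 : (√(8 * t ^ 2 * X) + t ^ 2 / 2 * ‖y‖) ^ 2 ≤ 2 * (8 * t ^ 2 * X) + 2 * (t ^ 2 / 2 * ‖y‖) ^ 2 := by
    nlinarith [sq_nonneg (√(8 * t ^ 2 * X) - t ^ 2 / 2 * ‖y‖)]
  refine h3.trans ?_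
  have e1 : 0 ≤ C * t ^ 4 * (n : ℝ) := by positivity
  have e2 : 0 ≤ C * (t ^ 4 * ‖y‖ ^ 2) := by positivity
  have e3 : 0 ≤ t ^ 4 * (n : ℝ) := by positivity
  have e4 : 0 ≤ t ^ 4 * ‖y‖ ^ 2 := by positivity
  rw [hX]
  linarith

/-- The property (tau) of the standard Gaussian measure, for the inner average. -/
theorem inner_le (hs : IsSLC 0 μ) (hμ : Car μ R) (hS : Sub1 μ) {t : ℝ} (ht : 0 < t) (v : Space n) :
    Real.log (∫ g, wHalf μ t (g + v) ∂gam n)
      ≤ ∫ g, (1 / 2 * lr μ t (g + v) + t / 2 * devSq μ t (g + v)) ∂gam n := by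
  set u : Space n → ℝ := fun g => 1 / 2 * lr μ t (g + v) with hu
  set φ : Space n → ℝ := fun g => 1 / 2 * lr μ t (g + v) + t / 2 * devSq μ t (g + v) with hφ
  have hlc := (contDiff_lr hμ t).continuous
  have hdc := continuous_devSq hμ t
  have huc : Continuous u := by simp only [hu]; fun_prop
  have hφc : Continuous φ := by simp only [hφ]; fun_prop
  have hsh : ∀ {F : Space n → ℝ}, Tame F → Tame fun g => F (g + v) := by
    rintro F ⟨A, c, hA⟩
    have hA0 : 0 ≤ A := by have := (abs_nonneg _).trans (hA 0); simpa using this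
    refine ⟨A * Real.exp (|c| * ‖v‖), |c|, fun g => (hA _).trans ?_⟩
    rw [mul_assoc, ← Real.exp_add]
    refine mul_le_mul_of_nonneg_left (Real.exp_le_exp.2 ?_) hA0
    have h1 := mul_le_mul (le_abs_self c) (norm_add_le g v) (norm_nonneg _) (abs_nonneg c)
    linarith [mul_add |c| ‖g‖ ‖v‖]
  have hφi : Integrable φ (gam n) :=
    Tame.integrable (((Tame.of_bdd (C := |(1 / 2 : ℝ)|) fun _ => le_rfl).mul (hsh (tame_lr hμ hS ht.le))).add
      ((Tame.of_bdd (C := |t / 2|) fun _ => le_rfl).mul (hsh (tame_devSq hμ t)))) hφc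
  have hui : Integrable (fun g => Real.exp (u g)) (gam n) := integrable_wHalf_shift hμ hS ht.le v
  set A : Space n → ℝ≥0∞ := fun x => ENNReal.ofReal (Real.exp (-(1 / 3) * φ x)) with hA
  set B : Space n → ℝ≥0∞ := fun x => ENNReal.ofReal (Real.exp (u x)) with hB
  set w : Space n → ℝ≥0∞ := fun x => ENNReal.ofReal (gd x) with hw
  have hAm : Measurable A := by simp only [hA]; fun_prop
  have hBm : Measurable B := by simp only [hB]; fun_prop
  have hwm : Measurable w := by simp only [hw]; fun_prop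
  have hpl := prekopa (l := (1 / 4 : ℝ)) (by norm_num) (by norm_num) (hwm.mul hAm) (hwm.mul hBm)
    hwm fun x y => ?_
  swap
  · simp only [Pi.mul_apply, hw, hA, hB]
    rw [← ENNReal.ofReal_mul (gd_pos x).le, ← ENNReal.ofReal_mul (gd_pos y).le,
      ENNReal.ofReal_rpow_of_pos (mul_pos (gd_pos x) (Real.exp_pos _)),
      ENNReal.ofReal_rpow_of_pos (mul_pos (gd_pos y) (Real.exp_pos _)),
      ← ENNReal.ofReal_mul (Real.rpow_nonneg (mul_nonneg (gd_pos x).le (Real.exp_pos _).le) _)]
    refine ENNReal.ofReal_le_ofReal ?_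
    have hdiff : y + v = (x + v) + (y - x) := by abel
    have hsc := lr_semiconcave hs hμ ht (x + v) (y - x)
    rw [← hdiff] at hsc
    have hcs : 1 / 2 * inner ℝ (lrG μ t (x + v)) (y - x)
        ≤ t / 2 * devSq μ t (x + v) + ‖x - y‖ ^ 2 / 8 := by
      have h1 := real_inner_le_norm (lrG μ t (x + v)) (y - x)
      rw [norm_sub_rev y x] at h1
      have h2 := norm_lrG_sq hμ ht.le (x + v)
      nlinarith [sq_nonneg (‖lrG μ t (x + v)‖ - ‖x - y‖ / 2)]
    have hK : 0 < (√(2 * Real.pi))⁻¹ ^ n := by positivity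
    have hker := ker_combo 1 (0 : Space n) (1 / 4) x y
    simp only [ker, inner_zero_left] at hker
    simp only [gd]
    rw [← Real.exp_log hK]
    simp only [← Real.exp_add, ← Real.exp_mul]
    refine Real.exp_le_exp.2 ?_
    rw [norm_sub_rev y x] at hsc
    simp only [hu, hφ]
    linarith
  have e : ∀ F : Space n → ℝ≥0∞, Measurable F →
      ∫⁻ x, (w * F) x = ∫⁻ x, F x ∂gam n := fun F hF => by
    rw [gam_eq, lintegral_withDensity_eq_lintegral_mul _ hwm hF]
  have ew : ∫⁻ x, w x = 1 := by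
    have h := e (fun _ => 1) measurable_const
    simpa using h
  rw [e A hAm, e B hBm, ew] at hpl
  set m := ∫ g, φ g ∂gam n
  have hI : ∫⁻ x, B x ∂gam n = ENNReal.ofReal (∫ g, Real.exp (u g) ∂gam n) :=
    (ofReal_integral_eq_lintegral_ofReal hui (ae_of_all _ fun x => (Real.exp_pos _).le)).symm
  have hJ : ENNReal.ofReal (Real.exp (-(1 / 3) * m)) ≤ ∫⁻ x, A x ∂gam n := by
    set lo : Space n → ℝ := fun x => Real.exp (-(1 / 3) * m) * (1 + -(1 / 3) * (φ x - m)) with hlo
    have hloi : Integrable lo (gam n) :=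
      (((integrable_const (1 : ℝ)).add ((hφi.sub (integrable_const m)).const_mul _)).const_mul _)
    have hloe : ∫ x, lo x ∂gam n = Real.exp (-(1 / 3) * m) := by
      simp only [hlo]
      rw [integral_const_mul, integral_add (integrable_const _)
        ((hφi.sub' (integrable_const m)).const_mul _), integral_const_mul,
        integral_sub hφi (integrable_const m), integral_const, integral_const]
      simp [m]
    rw [← hloe]
    refine le_trans (ENNReal.ofReal_le_ofReal (integral_mono hloi hloi.pos_part fun x => le_max_left _ 0)) ?_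
    rw [ofReal_integral_eq_lintegral_ofReal hloi.pos_part (ae_of_all _ fun x => le_max_right _ _)]
    refine lintegral_mono fun x => ENNReal.ofReal_le_ofReal (max_le ?_ (Real.exp_pos _).le)
    simp only [hlo]
    calc Real.exp (-(1 / 3) * m) * (1 + -(1 / 3) * (φ x - m))
        ≤ Real.exp (-(1 / 3) * m) * Real.exp (-(1 / 3) * (φ x - m)) :=
          mul_le_mul_of_nonneg_left (by linarith [Real.add_one_le_exp (-(1 / 3) * (φ x - m))])
            (Real.exp_pos _).le
      _ = _ := by rw [← Real.exp_add]; congr 1; ring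
  have h2 := (mul_le_mul' (ENNReal.rpow_le_rpow hJ (by norm_num : (0 : ℝ) ≤ 1 - 1 / 4)) le_rfl).trans hpl
  have hpos : 0 < ∫ g, Real.exp (u g) ∂gam n := integral_exp_pos hui
  rw [hI, ENNReal.ofReal_rpow_of_pos (Real.exp_pos _), ENNReal.ofReal_rpow_of_pos hpos,
    ← ENNReal.ofReal_mul (Real.rpow_nonneg (Real.exp_pos _).le _), ENNReal.ofReal_le_one,
    ← Real.exp_mul, Real.rpow_def_of_pos hpos, ← Real.exp_add, Real.exp_le_one_iff] at h2
  show Real.log (∫ g, Real.exp (u g) ∂gam n) ≤ m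
  linarith

/-- The mean of the outer function. -/
theorem integral_Phi_le (hs : IsSLC 0 μ) (hμ : Car μ R) (hS : Sub1 μ) {t : ℝ} (ht : 0 < t)
    (ht4 : t ≤ 1 / 4) :
    ∫ y, Phi μ t y ∂μ ≤ 3 / 2 * t * ∫ g, devSq μ t g * Zf μ (t, √t • g) ∂gam n := by
  have := hμ.prob
  have hlc := (contDiff_lr hμ t).continuous
  have hdc := continuous_devSq hμ t
  set ψ : Space n → ℝ := fun g => 1 / 2 * lr μ t g + t / 2 * devSq μ t g with hψ
  have hψc : Continuous ψ := by simp only [hψ]; fun_prop
  have hψT : Tame ψ :=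
    ((Tame.of_bdd (C := |(1 / 2 : ℝ)|) fun _ => le_rfl).mul (tame_lr hμ hS ht.le)).add
      ((Tame.of_bdd (C := |t / 2|) fun _ => le_rfl).mul (tame_devSq hμ t))
  obtain ⟨A, c, hA⟩ := hψT
  have hA0 : 0 ≤ A := by have := (abs_nonneg _).trans (hA 0); simpa using this
  have hFi : Integrable (Function.uncurry fun g y : Space n => ψ (g + √t • y)) ((gam n).prod μ) := by
    refine integrable_gam_prod hμ (by simp only [Function.uncurry_def]; fun_prop)
      (A := A * Real.exp (|c| * (√t * R))) (c := |c|) fun g y hy => (hA _).trans ?_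
    rw [mul_assoc, ← Real.exp_add]
    refine mul_le_mul_of_nonneg_left (Real.exp_le_exp.2 ?_) hA0
    have h1 := mul_le_mul (le_abs_self c) (norm_add_le g (√t • y)) (norm_nonneg _) (abs_nonneg c)
    have h2 : ‖√t • y‖ ≤ √t * R := by
      rw [norm_smul, Real.norm_eq_abs, abs_of_nonneg (Real.sqrt_nonneg t)]
      exact mul_le_mul_of_nonneg_left hy (Real.sqrt_nonneg t)
    have h3 := mul_le_mul_of_nonneg_left h2 (abs_nonneg c)
    linarith [mul_add |c| ‖g‖ ‖√t • y‖]
  refine (integral_mono (hμ.int_cont (contDiff_Phi hμ hS ht.le).continuous) hFi.integral_prod_right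
    fun y => inner_le hs hμ hS ht (√t • y)).trans ?_
  have hid := shift_identity hμ ht.le (φ := fun _ => (1 : ℝ)) continuous_const hψc ⟨A, c, hA⟩
  simp only [one_mul] at hid
  show (∫ y, ∫ g, ψ (g + √t • y) ∂gam n ∂μ) ≤ _
  rw [← hid]
  have hk := kl_le hμ hS ht.le ht4
  have hZc : Continuous fun g : Space n => Zf μ (t, √t • g) := (continuous_Zf hμ).comp (by fun_prop)
  have i1 : Integrable (fun g => lr μ t g * Zf μ (t, √t • g)) (gam n) :=
    ((tame_lr hμ hS ht.le).mul (tame_Zf hμ t)).integrable (hlc.mul hZc)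
  have i2 : Integrable (fun g => devSq μ t g * Zf μ (t, √t • g)) (gam n) :=
    ((tame_devSq hμ t).mul (tame_Zf hμ t)).integrable (hdc.mul hZc)
  have e : ∀ g, ψ g * Nf μ (fun _ => 1) (t, √t • g)
      = 1 / 2 * (lr μ t g * Zf μ (t, √t • g)) + t / 2 * (devSq μ t g * Zf μ (t, √t • g)) := fun g => by
    simp only [hψ, Zf]; ring
  simp only [e]
  rw [integral_add (i1.const_mul _) (i2.const_mul _), integral_const_mul, integral_const_mul]
  linarith

/-- The divergence of order three halves of the channel law relative to the reference. -/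
def HalfLe (μ : Measure (Space n)) (t r : ℝ) : Prop :=
  ∫ g, Zf μ (t, √t • g) * wHalf μ t g ∂gam n ≤ Real.exp r

/-- The bound of the divergence. -/
theorem renyiHalf {q : ℕ} (hq : 4 ≤ q) :
    ∃ C c : ℝ, 1 ≤ C ∧ 0 < c ∧ c ≤ 1 ∧ ∀ (n : ℕ) (μ : Measure (Space n)) (R : ℝ), 1 ≤ n →
      IsSLC 0 μ → Sub1 μ → Car μ R → ∀ t K : ℝ, 0 < t → C * t ≤ 1 →
        t * (n : ℝ) ^ ((q : ℝ)⁻¹) ≤ c → 0 ≤ K → LSIle μ K → C * K * t ^ 4 ≤ 1 →
          HalfLe μ t (C * (t ^ 3 * n * ((n : ℝ) ^ ((q : ℝ)⁻¹)) ^ 4 + K * t ^ 4 * n)) := by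
  obtain ⟨CE, c, hCE, hc, hc1, hE⟩ := energy_le hq
  obtain ⟨C0, hC0, hcr⟩ := renyiCrude_of gaussQuad expSqBound
  obtain ⟨CH, hCH, hherb⟩ := herbstGrowth
  set B := 64 * C0 + 128 with hB
  have hB0 : 0 ≤ B := by positivity
  set C := 2 * CE + C0 + 2 * (CH * B) + 4 with hC
  have hHB : 0 ≤ CH * B := by positivity
  refine ⟨C, c, by linarith, hc, hc1, fun n μ R hn hs hS hμ t K ht htC htN hK hLSI hKt => ?_⟩
  have := hμ.prob
  have hC0t : C0 * t ≤ 1 := le_trans (mul_le_mul_of_nonneg_right (by linarith) ht.le) htC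
  have ht4 : t ≤ 1 / 4 := by
    have h4 : 4 * t ≤ C * t := mul_le_mul_of_nonneg_right (by linarith) ht.le
    linarith
  have hren := hcr n μ R hn hs hS hμ t ht hC0t
  obtain ⟨-, hen⟩ := hE n μ R hn hs hS hμ t ht.le htN
  have hmean := (integral_Phi_le hs hμ hS ht ht4).trans
    (mul_le_mul_of_nonneg_left hen (by positivity))
  have hK' : CH * K * (B * t ^ 4) ≤ 1 := by
    refine le_trans ?_ hKt
    calc CH * K * (B * t ^ 4) = CH * B * (K * t ^ 4) := by ring
      _ ≤ C * (K * t ^ 4) := mul_le_mul_of_nonneg_right (by linarith) (by positivity)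
      _ = _ := by ring
  have hh := hherb n μ R K (B * t ^ 4 * n) (B * t ^ 4) hμ hS hK hLSI (by positivity) (by positivity)
    hK' (Phi μ t) (contDiff_Phi hμ hS ht.le) fun y _ => by
      refine (norm_fderiv_Phi_le hs hμ hS ht ht4 (by linarith) hren y).trans_eq ?_
      rw [hB]; ring
  rw [HalfLe]
  have e : ∀ g, Zf μ (t, √t • g) * wHalf μ t g
      = wHalf μ t g * Nf μ (fun _ => 1) (t, √t • g) := fun g => by rw [Zf]; ring
  simp only [e]
  rw [shift_identity hμ ht.le (φ := fun _ => (1 : ℝ)) continuous_const (continuous_wHalf hμ t)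
    (tame_wHalf hμ hS ht.le)]
  simp only [one_mul, ← exp_Phi hμ hS ht.le]
  set m := ∫ y, Phi μ t y ∂μ
  have e2 : ∀ y, Real.exp (Phi μ t y) = Real.exp m * Real.exp (Phi μ t y - m) := fun y => by
    rw [← Real.exp_add]; congr 1; ring
  simp only [e2, integral_const_mul]
  refine (mul_le_mul_of_nonneg_left hh (Real.exp_pos _).le).trans ?_
  rw [← Real.exp_add]
  refine Real.exp_le_exp.2 ?_
  set N4 := ((n : ℝ) ^ ((q : ℝ)⁻¹)) ^ 4
  set X := t ^ 3 * (n : ℝ) * N4
  set Y := K * t ^ 4 * (n : ℝ)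
  have hX : 0 ≤ X := by positivity
  have hY : 0 ≤ Y := by positivity
  have e3 : 3 / 2 * t * (CE * t ^ 2 * n * N4) = 3 / 2 * CE * X := by ring
  have e4 : CH * K * (B * t ^ 4 * n + B * t ^ 4 * n) = 2 * (CH * B) * Y := by ring
  have h1 : 3 / 2 * CE * X ≤ C * X := mul_le_mul_of_nonneg_right (by linarith) hX
  have h2 : 2 * (CH * B) * Y ≤ C * Y := mul_le_mul_of_nonneg_right (by linarith) hY
  linarith

end Vale.Agent.P245
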