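import Vale.Agent.P245.Quarter.Energy
import Vale.Agent.P245.Push.GaussQuad

/-!
The log-likelihood ratio of the channel law against the Gaussian reference of precision
`1 - t * covM μ`, its convexity properties and the relative entropy bound.
-/

noncomputable section

open MeasureTheory ProbabilityTheory Set Filter Topology Matrix
open scoped ENNReal

namespace Vale.Agent.P245

variable {n : ℕ} {μ : Measure (Space n)} {R : ℝ}

/-- The logarithm of the normalisation of the reference. -/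
def lN2 (μ : Measure (Space n)) (t : ℝ) : ℝ := Real.log (∫ g, Real.exp (t / 2 * qA μ g) ∂gam n)

/-- The log-likelihood ratio. -/
def lr (μ : Measure (Space n)) (t : ℝ) (g : Space n) : ℝ :=
  Real.log (Zf μ (t, √t • g)) - t / 2 * qA μ g + lN2 μ t

/-- The gradient of the log-likelihood ratio. -/
def lrG (μ : Measure (Space n)) (t : ℝ) (g : Space n) : Space n :=
  √t • mid μ (fun _ => 1) (t, √t • g) - t • covL μ g

theorem qA_eq_inner (μ : Measure (Space n)) (x : Space n) : qA μ x = inner ℝ (covL μ x) x := by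
  rw [qA, ← covL_apply]
  simp [PiLp.inner_apply, dotProduct]

theorem covL_symm (μ : Measure (Space n)) (x v : Space n) :
    inner ℝ (covL μ v) x = inner ℝ (covL μ x) v := by
  have e : ∀ a b : Space n, inner ℝ (covL μ a) b = b.ofLp ⬝ᵥ covM μ *ᵥ a.ofLp := fun a b => by
    rw [← covL_apply]; simp [PiLp.inner_apply, dotProduct]
  rw [e, e, Matrix.dotProduct_mulVec, ← Matrix.mulVec_transpose, covM_transpose, dotProduct_comm]

theorem qA_le_norm_sq (hμ : Car μ R) (hS : Sub1 μ) (g : Space n) : qA μ g ≤ ‖g‖ ^ 2 := by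
  refine (hS.op_le_one hμ g.ofLp).trans_eq ?_
  rw [EuclideanSpace.norm_sq_eq]; simp [dotProduct, sq]

theorem qA_add (μ : Measure (Space n)) (g v : Space n) :
    qA μ (g + v) = qA μ g + 2 * inner ℝ (covL μ g) v + qA μ v := by
  simp only [qA_eq_inner, map_add, inner_add_left, inner_add_right, covL_symm μ g v]
  ring

theorem qA_smul (μ : Measure (Space n)) (c : ℝ) (v : Space n) :
    qA μ (c • v) = c ^ 2 * qA μ v := by
  simp only [qA_eq_inner, map_smul, real_inner_smul_left, real_inner_smul_right]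
  ring

theorem hasFDerivAt_qA (μ : Measure (Space n)) (x : Space n) :
    HasFDerivAt (qA μ) (innerSL ℝ ((2 : ℝ) • covL μ x)) x := by
  have h1 : HasFDerivAt (fun x : Space n => inner ℝ (covL μ x) x) _ x :=
    (covL μ).hasFDerivAt.inner ℝ (hasFDerivAt_id x)
  rw [show qA μ = fun x => inner ℝ (covL μ x) x from funext (qA_eq_inner μ)]
  refine h1.congr_fderiv (ContinuousLinearMap.ext fun v => ?_)
  simp only [ContinuousLinearMap.comp_apply, ContinuousLinearMap.prod_apply, fderivInnerCLM_apply,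
    innerSL_apply_apply, ContinuousLinearMap.id_apply, real_inner_smul_left, covL_symm μ x v]
  ring

theorem contDiff_qA (μ : Measure (Space n)) : ContDiff ℝ 2 (qA μ) := by
  rw [show qA μ = fun x => inner ℝ (covL μ x) x from funext (qA_eq_inner μ)]
  exact (covL μ).contDiff.inner ℝ contDiff_id

theorem contDiff_lr (hμ : Car μ R) (t : ℝ) : ContDiff ℝ 2 (lr μ t) :=
  ((contDiff_logNf hμ continuous_const (fun _ => one_pos) t).sub
    (contDiff_const.mul (contDiff_qA μ))).add contDiff_const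

theorem hasFDerivAt_lr (hμ : Car μ R) (t : ℝ) (g : Space n) :
    HasFDerivAt (lr μ t) (innerSL ℝ (lrG μ t g)) g := by
  refine (((hasFDerivAt_logNf hμ continuous_const (fun _ => one_pos) t g).sub
    ((hasFDerivAt_qA μ g).const_mul (t / 2))).add_const (lN2 μ t)).congr_fderiv
      (ContinuousLinearMap.ext fun v => ?_)
  simp only [lrG, _root_.sub_apply, _root_.smul_apply, innerSL_apply_apply, inner_sub_left,
    real_inner_smul_left, smul_eq_mul]
  ring

theorem continuous_lrG (hμ : Car μ R) (t : ℝ) : Continuous (lrG μ t) := by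
  have := continuous_mid hμ (continuous_const (y := (1 : ℝ))) (fun _ => one_pos)
  unfold lrG; fun_prop

theorem mid_coord (hμ : Car μ R) (p : Par n) (i : Fin n) :
    (mid μ (fun _ => 1) p) i = bar μ i p := by
  have h := inner_mid hμ (continuous_const (y := (1 : ℝ))) p (ev i)
  simp only [EuclideanSpace.inner_single_left, conj_trivial, one_mul] at h
  rw [h, bar, M, Zf]
  ring

theorem norm_lrG_sq (hμ : Car μ R) {t : ℝ} (ht : 0 ≤ t) (g : Space n) :
    ‖lrG μ t g‖ ^ 2 = t * devSq μ t g := by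
  rw [EuclideanSpace.norm_sq_eq, devSq, Finset.mul_sum]
  refine Finset.sum_congr rfl fun i _ => ?_
  rw [Real.norm_eq_abs, sq_abs]
  simp only [lrG, PiLp.sub_apply, PiLp.smul_apply, smul_eq_mul, mid_coord hμ]
  linear_combination (bar μ i (t, √t • g) ^ 2 - t * (covL μ g) i ^ 2) * Real.sq_sqrt ht

/-- Tangent and semiconcavity of the log-normalisation. -/
theorem lZ_tangent (hs : IsSLC 0 μ) (hμ : Car μ R) {t : ℝ} (ht : 0 < t) (g d : Space n) :
    Real.log (Zf μ (t, √t • g)) + inner ℝ (√t • mid μ (fun _ => 1) (t, √t • g)) d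
        ≤ Real.log (Zf μ (t, √t • (g + d))) ∧
      Real.log (Zf μ (t, √t • (g + d)))
        ≤ Real.log (Zf μ (t, √t • g)) + inner ℝ (√t • mid μ (fun _ => 1) (t, √t • g)) d
          + ‖d‖ ^ 2 / 2 := by
  set p : Par n := (t, √t • g)
  have hν := hμ.tlt p
  have := hν.prob
  set v : Space n := √t • d with hv
  set b := mid μ (fun _ => 1) p with hb
  have hZ := Zf_pos hμ p
  have hI : ∫ x, Real.exp (inner ℝ v x) ∂tlt μ p = Zf μ (t, √t • (g + d)) / Zf μ p := by
    rw [← M_eq, M]
    congr 1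
    refine integral_congr_ae (ae_of_all _ fun x => ?_)
    simp only [← Real.exp_add, one_mul]
    congr 1
    simp only [p, ker, hv, smul_add, inner_add_left]
    ring
  have hpos : 0 < ∫ x, Real.exp (inner ℝ v x) ∂tlt μ p := integral_exp_pos (hν.int_cont (by fun_prop))
  have hlog : Real.log (∫ x, Real.exp (inner ℝ v x) ∂tlt μ p)
      = Real.log (Zf μ (t, √t • (g + d))) - Real.log (Zf μ p) := by
    rw [hI, Real.log_div (Zf_pos hμ _).ne' hZ.ne']
  have hin : ∫ x, inner ℝ v x ∂tlt μ p = inner ℝ (√t • b) d := by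
    rw [integral_inner (f := fun x : Space n => x) (integrable_of_ball hν.bd continuous_id) v,
      ← mid_one_eq hμ, ← hb, hv, real_inner_smul_left, real_inner_smul_left, real_inner_comm d b]
  constructor
  · have h1 := convexOn_exp.map_integral_le (μ := tlt μ p) (f := fun x => inner ℝ v x)
      Real.continuous_exp.continuousOn isClosed_univ
      (ae_of_all _ fun _ => mem_univ _) (hν.int_cont (by fun_prop)) (hν.int_cont (by fun_prop))
    rw [← Real.le_log_iff_exp_le hpos, hlog, hin] at h1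
    linarith
  · have h2 : IsSLC (0 + t) (tlt μ p) := hs.tlt p
    rw [zero_add] at h2
    have h3 := h2.mgf ht v
    have e : ∀ x, Real.exp (inner ℝ v (x - ∫ y, y ∂tlt μ p))
        = Real.exp (-inner ℝ (√t • b) d) * Real.exp (inner ℝ v x) := fun x => by
      rw [← Real.exp_add, inner_sub_right, ← mid_one_eq hμ, ← hb]
      congr 1
      rw [hv, real_inner_smul_left _ b, real_inner_smul_left b, real_inner_comm d b]
      ring
    simp only [e, integral_const_mul] at h3
    have h4 : Real.log (∫ x, Real.exp (inner ℝ v x) ∂tlt μ p)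
        ≤ inner ℝ (√t • b) d + ‖v‖ ^ 2 / (2 * t) := by
      rw [Real.log_le_iff_le_exp hpos, Real.exp_add]
      rw [Real.exp_neg, inv_mul_le_iff₀ (Real.exp_pos _)] at h3
      exact h3
    have e2 : ‖v‖ ^ 2 / (2 * t) = ‖d‖ ^ 2 / 2 := by
      rw [hv, norm_smul, Real.norm_eq_abs, mul_pow, sq_abs, Real.sq_sqrt ht.le]
      field_simp
    rw [hlog, e2] at h4
    linarith

/-- Semiconcavity of the log-likelihood ratio. -/
theorem lr_semiconcave (hs : IsSLC 0 μ) (hμ : Car μ R) {t : ℝ} (ht : 0 < t) (g d : Space n) :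
    lr μ t (g + d) ≤ lr μ t g + inner ℝ (lrG μ t g) d + ‖d‖ ^ 2 / 2 := by
  have h := (lZ_tangent hs hμ ht g d).2
  have hq := mul_nonneg (show 0 ≤ t / 2 by linarith) (qA_nonneg hμ d)
  simp only [lr, lrG, qA_add, inner_sub_left, real_inner_smul_left] at h ⊢
  linarith

theorem Tame.norm_sq : Tame fun g : Space n => ‖g‖ ^ 2 :=
  ⟨2, 1, fun g => by
    rw [abs_of_nonneg (sq_nonneg _), one_mul]
    nlinarith [Real.quadratic_le_exp_of_nonneg (norm_nonneg g), norm_nonneg g]⟩

theorem Tame.of_le {F G : Space n → ℝ} (hG : Tame G) (h : ∀ x, |F x| ≤ |G x|) : Tame F :=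
  let ⟨A, c, hA⟩ := hG; ⟨A, c, fun x => (h x).trans (hA x)⟩

theorem Tame.add {F G : Space n → ℝ} (hF : Tame F) (hG : Tame G) : Tame fun x => F x + G x := by
  obtain ⟨A, c, hA⟩ := hF
  obtain ⟨B, d, hB⟩ := hG
  refine ⟨max A 0 + max B 0, max c d, fun x => (abs_add_le _ _).trans ?_⟩
  have h1 : A * Real.exp (c * ‖x‖) ≤ max A 0 * Real.exp (max c d * ‖x‖) :=
    mul_le_mul (le_max_left _ _) (Real.exp_le_exp.2 (mul_le_mul_of_nonneg_right (le_max_left _ _)
      (norm_nonneg x))) (Real.exp_pos _).le (le_max_right _ _)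
  have h2 : B * Real.exp (d * ‖x‖) ≤ max B 0 * Real.exp (max c d * ‖x‖) :=
    mul_le_mul (le_max_left _ _) (Real.exp_le_exp.2 (mul_le_mul_of_nonneg_right (le_max_right _ _)
      (norm_nonneg x))) (Real.exp_pos _).le (le_max_right _ _)
  rw [add_mul]
  linarith [hA x, hB x]

theorem Tame.comp_clm {F : Space n → ℝ} (hF : Tame F) (T : Space n →L[ℝ] Space n) :
    Tame fun x => F (T x) := by
  obtain ⟨A, c, hA⟩ := hF
  refine ⟨A, max c 0 * ‖T‖, fun x => (hA _).trans ?_⟩
  have hA0 : 0 ≤ A := by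
    have := (abs_nonneg _).trans (hA (0 : Space n)); simpa using this
  refine mul_le_mul_of_nonneg_left (Real.exp_le_exp.2 ?_) hA0
  calc c * ‖T x‖ ≤ max c 0 * (‖T‖ * ‖x‖) :=
        mul_le_mul (le_max_left _ _) (T.le_opNorm x) (norm_nonneg _) (le_max_right _ _)
    _ = _ := by ring

theorem abs_lr_le (hμ : Car μ R) (hS : Sub1 μ) {t : ℝ} (ht : 0 ≤ t) :
    ∃ A, ∀ g, lr μ t g ≤ A + √t * R * ‖g‖ ∧ |lr μ t g| ≤ A + √t * R * ‖g‖ + t / 2 * ‖g‖ ^ 2 := by
  refine ⟨|Real.log (Nf μ (fun _ => 1) (t, √t • (0 : Space n)))| + |lN2 μ t|, fun g => ?_⟩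
  have h : |Real.log (Zf μ (t, √t • g))| ≤ _ := abs_logNf_le hμ continuous_const (fun _ => one_pos) t g
  have hq := mul_nonneg (show 0 ≤ t / 2 by linarith) (qA_nonneg hμ g)
  have hq2 := mul_le_mul_of_nonneg_left (qA_le_norm_sq hμ hS g) (show 0 ≤ t / 2 by linarith)
  have hl := abs_le.1 h
  have hn := abs_le.1 (le_refl |lN2 μ t|)
  refine ⟨by simp only [lr]; linarith, abs_le.2 ⟨by simp only [lr]; linarith, ?_⟩⟩
  have : 0 ≤ t / 2 * ‖g‖ ^ 2 := by positivity
  simp only [lr]; linarith

theorem tame_lr (hμ : Car μ R) (hS : Sub1 μ) {t : ℝ} (ht : 0 ≤ t) : Tame (lr μ t) := by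
  obtain ⟨A, hA⟩ := abs_lr_le hμ hS ht
  have hA0 : 0 ≤ A := by
    have := (abs_nonneg _).trans (hA (0 : Space n)).2
    simpa using this
  have hR := hμ.nonneg
  refine Tame.of_le ((Tame.of_lin (F := fun g : Space n => A + √t * R * ‖g‖) fun g =>
    (abs_of_nonneg (by positivity)).le).add (Tame.mul (Tame.of_bdd (C := |t / 2|) fun _ => le_rfl)
      Tame.norm_sq)) fun g => ?_
  exact (hA g).2.trans (le_abs_self _)

/-- Exponentials of nonnegative multiples of the ratio are tame. -/
theorem tame_exp_lr (hμ : Car μ R) (hS : Sub1 μ) {t : ℝ} (ht : 0 ≤ t) {a : ℝ} (ha : 0 ≤ a) :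
    Tame fun g => Real.exp (a * lr μ t g) := by
  obtain ⟨A, hA⟩ := abs_lr_le hμ hS ht
  refine Tame.of_le_exp (A := a * A) (B := a * (√t * R)) fun g => ?_
  rw [Real.abs_exp]
  refine Real.exp_le_exp.2 ((mul_le_mul_of_nonneg_left (hA g).1 ha).trans_eq ?_)
  ring

theorem tame_devSq (hμ : Car μ R) (t : ℝ) : Tame (devSq μ t) := by
  rw [show devSq μ t = ∑ i, fun g => (bar μ i (t, √t • g) - √t * (covL μ g) i) ^ 2 by
    funext g; simp [devSq]]
  refine Finset.sum_induction _ (fun F : Space n → ℝ => Tame F) (fun F G hF hG => hF.add hG)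
    (Tame.of_bdd (C := 0) fun _ => by simp) fun i _ => ?_
  simp only [sq]
  obtain ⟨B, hB⟩ := bounded_M hμ (adm_continuous (φ := fun x : Space n => x i) (by fun_prop) R)
  have h : Tame fun g : Space n => bar μ i (t, √t • g) - √t * (covL μ g) i :=
    Tame.of_lin (A := B) (B := |√t| * ‖covL μ‖) fun g => by
      refine (abs_sub _ _).trans (add_le_add (hB _) ?_)
      rw [abs_mul, mul_assoc]
      exact mul_le_mul_of_nonneg_left ((abs_coord_le _ i).trans ((covL μ).le_opNorm g)) (abs_nonneg _)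
  exact h.mul h

theorem continuous_devSq (hμ : Car μ R) (t : ℝ) : Continuous (devSq μ t) := by
  unfold devSq
  refine continuous_finsetSum _ fun i _ => ?_
  have : Continuous fun g : Space n => bar μ i (t, √t • g) :=
    (obs_bar hμ i).1.comp (by fun_prop)
  fun_prop

/-- The reference as a linear image of the standard Gaussian measure. -/
theorem exists_refMap (hμ : Car μ R) (hS : Sub1 μ) {t : ℝ} (ht : 0 ≤ t) (ht4 : t ≤ 1 / 4) :
    ∃ T : Space n →L[ℝ] Space n, ‖T‖ ≤ 2 ∧ ∀ u : Space n → ℝ,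
      ∫ g, u g * Real.exp (t / 2 * qA μ g) ∂gam n
        = Real.exp (lN2 μ t) * ∫ g, u (T g) ∂gam n := by
  obtain ⟨U, lam, hE⟩ := exists_eig (posSemidef_covM hμ)
  set c : Fin n → ℝ := fun i => t * lam i with hc
  have hc1 : ∀ i, c i ≤ 1 / 4 := fun i => by
    simp only [hc]
    exact (mul_le_mul ht4 (hE.lam_le_one hS hμ i) (hE.nonneg i) (by norm_num)).trans (by norm_num)
  have hc0 : ∀ i, c i < 1 := fun i => by linarith [hc1 i]
  set d : Fin n → ℝ := fun i => (√(1 - c i))⁻¹ with hd
  set T : Space n →L[ℝ] Space n := Matrix.toEuclideanCLM (n := Fin n) (𝕜 := ℝ) (U * diagonal d) with hT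
  refine ⟨T, ?_, ?_⟩
  · refine ContinuousLinearMap.opNorm_le_bound _ two_pos.le fun x => ?_
    refine (pow_le_pow_iff_left₀ (norm_nonneg _) (by positivity) two_ne_zero).1 ?_
    have e : eco U (T x) = fun i => d i * x i := by
      funext i
      simp only [eco, hT, Matrix.ofLp_toEuclideanCLM]
      rw [Matrix.mulVec_mulVec, ← Matrix.mul_assoc, hE.left, Matrix.one_mul, Matrix.mulVec_diagonal]
    rw [← real_inner_self_eq_norm_sq, inner_eq_eco hE.right, e, mul_pow, EuclideanSpace.norm_sq_eq,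
      Finset.mul_sum]
    refine Finset.sum_le_sum fun i _ => ?_
    have h1 : 0 < 1 - c i := by linarith [hc0 i]
    have h2 : d i ^ 2 ≤ 4 := by
      rw [hd, inv_pow, Real.sq_sqrt h1.le, inv_le_comm₀ h1 (by norm_num)]
      linarith [hc1 i]
    calc d i * x i * (d i * x i) = d i ^ 2 * x i ^ 2 := by ring
      _ ≤ 4 * x i ^ 2 := mul_le_mul_of_nonneg_right h2 (sq_nonneg _)
      _ = _ := by rw [Real.norm_eq_abs, sq_abs]; norm_num
  · have hquad : ∀ u : Space n → ℝ, ∫ g, u g * Real.exp (t / 2 * qA μ g) ∂gam n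
        = (∏ i, √(1 - c i))⁻¹ * ∫ g, u (T g) ∂gam n := by
      intro u
      have e : ∀ g : Space n, t / 2 * qA μ g
          = 1 / 2 * (g.ofLp ⬝ᵥ (U * diagonal c * Uᵀ) *ᵥ g.ofLp) := fun g => by
        rw [← sum_eco_mul, qA_eq_eco hE, Finset.mul_sum, Finset.mul_sum]
        exact Finset.sum_congr rfl fun i _ => by simp only [hc]; ring
      simp only [e]
      exact gaussQuad n U c hE.left hE.right hc0 u
    have hN : ∫ g, Real.exp (t / 2 * qA μ g) ∂gam n = (∏ i, √(1 - c i))⁻¹ := by
      simpa using hquad fun _ => 1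
    intro u
    rw [hquad, lN2, hN, Real.exp_log (inv_pos.2
      (Finset.prod_pos fun i _ => Real.sqrt_pos.2 (by linarith [hc0 i])))]

/-- The Gaussian logarithmic Sobolev inequality, exponential form, without growth conditions. -/
theorem gam_lsi_exp_of_integrable {φ : Space n → ℝ} (hφ : ContDiff ℝ 2 φ)
    (t1 : Integrable (fun x => Real.exp (φ x)) (gam n))
    (t2 : Integrable (fun x => φ x * Real.exp (φ x)) (gam n))
    (t3 : Integrable (fun x => ‖fderiv ℝ φ x‖ ^ 2 * Real.exp (φ x)) (gam n)) :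
    ent (gam n) (fun x => Real.exp (φ x))
      ≤ 1 / 2 * ∫ x, ‖fderiv ℝ φ x‖ ^ 2 * Real.exp (φ x) ∂gam n := by
  set s : ℕ → Set (Space n) := fun k => Metric.closedBall 0 k with hs
  have hsm : ∀ k, MeasurableSet (s k) := fun k => Metric.isClosed_closedBall.measurableSet
  have hmono : Monotone s := fun i j h => Metric.closedBall_subset_closedBall (Nat.cast_le.2 h)
  have hU : (⋃ k, s k) = univ := eq_univ_of_forall fun x => by
    simp only [mem_iUnion, hs, mem_closedBall_zero_iff]; exact exists_nat_ge _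
  have hlim : ∀ u : Space n → ℝ, Integrable u (gam n) →
      Tendsto (fun k => ∫ x in s k, u x ∂gam n) atTop (𝓝 (∫ x, u x ∂gam n)) := by
    intro u hu
    have := tendsto_setIntegral_of_monotone hsm hmono hu.integrableOn
    rwa [hU, setIntegral_univ] at this
  have hP : Tendsto (fun k => (gam n).real (s k)) atTop (𝓝 1) := by
    simpa using hlim (fun _ => (1 : ℝ)) (integrable_const 1)
  have hdiv : ∀ u : Space n → ℝ, Integrable u (gam n) →
      Tendsto (fun k => ∫ x, u x ∂(((gam n) (s k))⁻¹ • (gam n).restrict (s k))) atTop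
        (𝓝 (∫ x, u x ∂gam n)) := by
    intro u hu
    simp only [integral_smul_measure, ENNReal.toReal_inv, smul_eq_mul]
    simpa [measureReal_def] using (hP.inv₀ one_ne_zero).mul (hlim u hu)
  refine le_of_tendsto_of_tendsto ((?_ : Tendsto
    (fun k => ent (((gam n) (s k))⁻¹ • (gam n).restrict (s k)) (fun x => Real.exp (φ x))) atTop _))
    ((hdiv _ t3).const_mul (1 / 2)) ?_
  · simp only [ent, Real.log_exp, mul_comm (Real.exp (φ _)) (φ _)]
    exact (hdiv _ t2).sub ((hdiv _ t1).mul ((Real.continuousAt_log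
      (integral_exp_pos t1).ne').tendsto.comp (hdiv _ t1)))
  · filter_upwards [hP.eventually (Ioi_mem_nhds (show (1 / 2 : ℝ) < 1 by norm_num))] with k hk
    have := (slc_gam_ball (n := n) (k := (k : ℝ))
      (lt_trans one_half_pos (show 1 / 2 < _ from hk))).lsi_exp one_pos hφ
    simpa using this

theorem integral_Zf_one (hμ : Car μ R) {t : ℝ} (ht : 0 ≤ t) :
    ∫ g, Zf μ (t, √t • g) ∂gam n = 1 := by
  have h := Et_const (μ := μ) hμ 1 ht
  simpa [Et] using h

/-- The relative entropy of the channel law with respect to the reference. -/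
theorem kl_le (hμ : Car μ R) (hS : Sub1 μ) {t : ℝ} (ht : 0 ≤ t) (ht4 : t ≤ 1 / 4) :
    ∫ g, lr μ t g * Zf μ (t, √t • g) ∂gam n
      ≤ 2 * t * ∫ g, devSq μ t g * Zf μ (t, √t • g) ∂gam n := by
  obtain ⟨T, hTn, hT⟩ := exists_refMap hμ hS ht ht4
  have hc := (contDiff_lr hμ t)
  set φ : Space n → ℝ := fun g => lr μ t (T g) with hφ
  have hφd : ContDiff ℝ 2 φ := hc.comp T.contDiff
  have hlc := hc.continuous
  have hN := Real.exp_pos (lN2 μ t)
  have hexp : ∀ g, Real.exp (lr μ t g) * Real.exp (t / 2 * qA μ g)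
      = Real.exp (lN2 μ t) * Zf μ (t, √t • g) := fun g => by
    rw [← Real.exp_add, lr, show Real.log (Zf μ (t, √t • g)) - t / 2 * qA μ g + lN2 μ t
      + t / 2 * qA μ g = lN2 μ t + Real.log (Zf μ (t, √t • g)) by ring, Real.exp_add,
      Real.exp_log (Zf_pos hμ _)]
  have htr : ∀ u : Space n → ℝ,
      ∫ g, u (T g) * Real.exp (φ g) ∂gam n = ∫ g, u g * Zf μ (t, √t • g) ∂gam n := fun u => by
    have h := hT fun g => u g * Real.exp (lr μ t g)
    simp only [mul_assoc, hexp] at h
    simp only [mul_left_comm (u _) (Real.exp (lN2 μ t)), integral_const_mul] at h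
    exact (mul_left_cancel₀ hN.ne' h).symm
  have te : Tame fun g => Real.exp (φ g) := by
    simpa using (tame_exp_lr hμ hS ht zero_le_one).comp_clm T
  have hdc : Continuous fun g => ‖fderiv ℝ φ g‖ ^ 2 :=
    ((hφd.continuous_fderiv (by norm_num)).norm.pow 2)
  have hdle : ∀ g, ‖fderiv ℝ φ g‖ ^ 2 ≤ 4 * (t * devSq μ t (T g)) := fun g => by
    have h1 : HasFDerivAt φ ((innerSL ℝ (lrG μ t (T g))).comp T) g :=
      (hasFDerivAt_lr hμ t (T g)).comp g T.hasFDerivAt
    rw [h1.fderiv, ← norm_lrG_sq hμ ht]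
    calc _ ≤ (‖innerSL ℝ (lrG μ t (T g))‖ * ‖T‖) ^ 2 :=
          pow_le_pow_left₀ (norm_nonneg _) (ContinuousLinearMap.opNorm_comp_le _ _) 2
      _ ≤ (‖lrG μ t (T g)‖ * 2) ^ 2 := by
          rw [innerSL_apply_norm]
          exact pow_le_pow_left₀ (by positivity) (mul_le_mul_of_nonneg_left hTn (norm_nonneg _)) 2
      _ = _ := by ring
  have td : Tame fun g => t * devSq μ t (T g) :=
    (Tame.of_bdd (C := |t|) fun _ => le_rfl).mul ((tame_devSq hμ t).comp_clm T)
  have hdevc := (continuous_devSq hμ t).comp T.continuous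
  have t1 : Integrable (fun g => Real.exp (φ g)) (gam n) := te.integrable hφd.continuous.rexp
  have t2 : Integrable (fun g => φ g * Real.exp (φ g)) (gam n) :=
    (((tame_lr hμ hS ht).comp_clm T).mul te).integrable (hφd.continuous.mul hφd.continuous.rexp)
  have t4 : Integrable (fun g => 4 * (t * devSq μ t (T g)) * Real.exp (φ g)) (gam n) :=
    (((Tame.of_bdd (C := 4) fun _ => by norm_num).mul td).mul te).integrable
      ((continuous_const.mul (continuous_const.mul hdevc)).mul hφd.continuous.rexp)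
  have t3 : Integrable (fun g => ‖fderiv ℝ φ g‖ ^ 2 * Real.exp (φ g)) (gam n) := by
    refine Integrable.mono' t4 (hdc.mul hφd.continuous.rexp).aestronglyMeasurable
      (ae_of_all _ fun g => ?_)
    rw [Real.norm_eq_abs, abs_of_nonneg (by positivity)]
    exact mul_le_mul_of_nonneg_right (hdle g) (Real.exp_pos _).le
  have key := gam_lsi_exp_of_integrable hφd t1 t2 t3
  have h1 : ∫ g, Real.exp (φ g) ∂gam n = 1 := by
    simpa [integral_Zf_one hμ ht] using htr fun _ => 1
  have h2 : ∫ g, Real.exp (φ g) * φ g ∂gam n = ∫ g, lr μ t g * Zf μ (t, √t • g) ∂gam n := by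
    rw [← htr]; exact integral_congr_ae (ae_of_all _ fun g => mul_comm _ _)
  have h3 : ∫ g, ‖fderiv ℝ φ g‖ ^ 2 * Real.exp (φ g) ∂gam n
      ≤ 4 * t * ∫ g, devSq μ t g * Zf μ (t, √t • g) ∂gam n := by
    refine (integral_mono t3 t4 fun g => mul_le_mul_of_nonneg_right (hdle g) (Real.exp_pos _).le).trans_eq ?_
    rw [← htr (devSq μ t), ← integral_const_mul]
    exact integral_congr_ae (ae_of_all _ fun g => by ring)
  simp only [ent, Real.log_exp, h1, Real.log_one, mul_zero, sub_zero, h2] at key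
  linarith

end Vale.Agent.P245
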